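import Vale.Agent.Lib.P177.Euler

/-!
# Euler characteristic of the quotient by a regular sequence
-/

open CategoryTheory TensorProduct

namespace Vale.Agent.P177

universe u

/-- `Y` is obtained from `X` by dividing out the regular sequence `zs`. -/
def RegQuot {A : Type u} [CommRing A] : List A → ∀ (X : Type u) [AddCommGroup X] [Module A X]
    (Y : Type u) [AddCommGroup Y] [Module A Y], Prop
  | [] => fun X _ _ Y _ _ => Nonempty (X ≃ₗ[A] Y)
  | z :: zs => fun X _ _ Y _ _ => Function.Injective (LinearMap.lsmul A X z) ∧
      RegQuot zs (X ⧸ LinearMap.range (LinearMap.lsmul A X z)) Y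

section

variable (R : Type u) [CommRing R] (A : Type u) [CommRing A] [Algebra R A]

/-- The support condition. -/
def SuppMax (N : ModuleCat.{u} R) (zs : List A) (X : Type u) [AddCommGroup X] [Module A X] :
    Prop :=
  ∀ q : Ideal A, q.IsPrime → (∀ r ∈ Module.annihilator R N, algebraMap R A r ∈ q) →
    Module.annihilator A X ≤ q → (∀ z ∈ zs, z ∈ q) → q.IsMaximal

variable {R A}

lemma SuppMax.step {N : ModuleCat.{u} R} {z : A} {zs : List A} {X : Type u} [AddCommGroup X]
    [Module A X] (h : SuppMax R A N (z :: zs) X) : SuppMax R A N zs (Quo A X z) := by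
  intro q hq hN hX hzs
  refine h q hq hN ?_ ?_
  · exact (LinearMap.annihilator_le_of_surjective _ (Submodule.mkQ_surjective _)).trans hX
  · intro y hy
    rcases List.mem_cons.mp hy with rfl | hy
    · apply hX
      rw [Module.mem_annihilator]
      intro m
      induction m using Submodule.Quotient.induction_on with
      | H x =>
        rw [← Submodule.Quotient.mk_smul, Submodule.Quotient.mk_eq_zero]
        exact ⟨x, rfl⟩
    · exact hzs y hy

lemma SuppMax.good [IsNoetherianRing A] {N : ModuleCat.{u} R} {zs : List A} {X : Type u}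
    [AddCommGroup X] [Module A X] [Module R X] [IsScalarTower R A X] [Module.Finite A X]
    (h : SuppMax R A N zs X) (P : ProjectiveResolution N)
    (hP : ∀ i, Module.Finite R (P.complex.X i)) (i : ℕ) : Good zs (H R A X P.complex i) := by
  refine ⟨H_finite R A X P.complex hP i, ?_⟩
  intro q hq hle hzs
  exact h q hq (fun r hr => hle (algebraMap_mem_annihilator_H R A X P r hr i))
    ((annihilator_le_H R A X P.complex i).trans hle) hzs

theorem eul_chain [IsNoetherianRing A] {N : ModuleCat.{u} R} (P : ProjectiveResolution N)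
    (hP : ∀ i, Module.Finite R (P.complex.X i)) (zs : List A) :
    ∀ (X Y : Type u) [AddCommGroup X] [Module A X] [Module R X] [IsScalarTower R A X]
      [AddCommGroup Y] [Module A Y] [Module R Y] [IsScalarTower R A Y] [Module.Finite A X]
      (_ : RegQuot zs X Y) (_ : SuppMax R A N zs X) (j : ℕ)
      (_ : ∀ i, j < i → Subsingleton (H R A X P.complex i)),
      (∀ n, j + zs.length + 1 ≤ n → eul R A Y P n [] = eul R A X P n zs) ∧
      (∀ i, j + zs.length < i → Subsingleton (H R A Y P.complex i)) ∧
      (∀ i, Good ([] : List A) (H R A Y P.complex i)) := by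
  induction zs with
  | nil =>
    intro X Y _ _ _ _ _ _ _ _ _ hreg hS j hj
    obtain ⟨e⟩ := hreg
    refine ⟨?_, ?_, ?_⟩
    · intro n _
      unfold eul
      refine Finset.sum_congr rfl (fun i _ => ?_)
      rw [nsym_nil, nsym_nil, (HEquiv R A e P.complex i).length_eq]
    · intro i hi
      have := hj i (by simpa using hi)
      exact (HEquiv R A e P.complex i).symm.subsingleton
    · intro i
      exact (hS.good P hP i).equiv (HEquiv R A e P.complex i)
  | cons z zs IH =>
    intro X Y _ _ _ _ _ _ _ _ _ hreg hS j hj
    obtain ⟨hz, hreg'⟩ := hreg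
    obtain ⟨h1, h2, h3⟩ := IH (Quo A X z) Y hreg' hS.step (j + 1) (by
      intro i hi
      obtain ⟨i, rfl⟩ : ∃ k, i = k + 1 := ⟨i - 1, by omega⟩
      exact H_succ_subsingleton R A X z hz P i (hj _ (by omega)) (hj _ (by omega)))
    refine ⟨?_, ?_, h3⟩
    · intro n hn
      simp only [List.length_cons] at hn
      rw [h1 n (by omega)]
      obtain ⟨n, rfl⟩ : ∃ k, n = k + 1 := ⟨n - 1, by omega⟩
      exact eul_step R A X z hz P zs n (fun i => hS.step.good P hP i) (hj _ (by omega))
    · intro i hi
      simp only [List.length_cons] at hi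
      exact h2 i (by omega)

end

end Vale.Agent.P177
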