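import Vale.Agent.Lib.P177.Final

/-!
# Both cases in one statement, for modules
-/

open CategoryTheory TensorProduct

namespace Vale.Agent.P177

universe u

variable (R : Type u) [CommRing R]

/-- the `i`-th Tor modules of isomorphic modules are isomorphic -/
noncomputable def combinedTorEquiv (i : ℕ) {M M' : Type u} [AddCommGroup M] [Module R M]
    [AddCommGroup M'] [Module R M'] (e : M ≃ₗ[R] M') (N : ModuleCat.{u} R) :
    torModule R i (ModuleCat.of R M) N ≃ₗ[R] torModule R i (ModuleCat.of R M') N :=
  (((Tor (ModuleCat.{u} R) i).mapIso e.toModuleIso).app N).toLinearEquiv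

theorem combined_transport (d : ℕ) {M M' N : Type u} [AddCommGroup M] [Module R M]
    [AddCommGroup M'] [Module R M'] [AddCommGroup N] [Module R N] (e : M ≃ₗ[R] M')
    (h : (∀ i, Module.length R (torModule R i (ModuleCat.of R M') (ModuleCat.of R N)) ≠ ⊤) ∧
      (∀ i, d < i → Subsingleton (torModule R i (ModuleCat.of R M') (ModuleCat.of R N))) ∧
      0 < serreChi R d (ModuleCat.of R M') (ModuleCat.of R N)) :
    (∀ i, Module.length R (torModule R i (ModuleCat.of R M) (ModuleCat.of R N)) ≠ ⊤) ∧
      (∀ i, d < i → Subsingleton (torModule R i (ModuleCat.of R M) (ModuleCat.of R N))) ∧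
      0 < serreChi R d (ModuleCat.of R M) (ModuleCat.of R N) := by
  have hl : ∀ i, Module.length R (torModule R i (ModuleCat.of R M) (ModuleCat.of R N)) =
      Module.length R (torModule R i (ModuleCat.of R M') (ModuleCat.of R N)) := fun i =>
    (combinedTorEquiv R i e (ModuleCat.of R N)).length_eq
  refine ⟨fun i => ?_, fun i hi => ?_, ?_⟩
  · rw [hl i]
    exact h.1 i
  · have := h.2.1 i hi
    exact (combinedTorEquiv R i e (ModuleCat.of R N)).toEquiv.subsingleton
  · have h3 := h.2.2
    unfold serreChi at h3 ⊢
    simp only [hl]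
    exact h3

/-- the two cases for modules -/
theorem combined [IsRegularLocalRing R] (d : ℕ) (hd : ringKrullDim R = d)
    (M N : Type u) [AddCommGroup M] [Module R M] [Module.Finite R M]
    [AddCommGroup N] [Module R N] [Module.Finite R N]
    (hlen : Module.length R (M ⊗[R] N) ≠ ⊤)
    (hdim : Module.supportDim R M + Module.supportDim R N = ringKrullDim R)
    (hM : (∃ (B : Type u) (_ : CommRing B) (_ : Algebra R B),
        IsRegularLocalRing B ∧ Nonempty (M ≃ₗ[R] B)) ∨
      ∃ (A : Type u) (_ : CommRing A) (_ : Algebra R A) (f : List A),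
        IsLocalRing A ∧ IsNoetherianRing A ∧ IsLocalHom (algebraMap R A) ∧ Module.Flat R A ∧
          RingTheory.Sequence.IsRegular A f ∧ Nonempty (M ≃ₗ[R] A ⧸ Ideal.ofList f)) :
    (∀ i, Module.length R (torModule R i (ModuleCat.of R M) (ModuleCat.of R N)) ≠ ⊤) ∧
      (∀ i, d < i → Subsingleton (torModule R i (ModuleCat.of R M) (ModuleCat.of R N))) ∧
      0 < serreChi R d (ModuleCat.of R M) (ModuleCat.of R N) := by
  rcases hM with ⟨B, i1, i2, hB, ⟨e⟩⟩ | ⟨A, i1, i2, f, hA1, hA2, hA3, hA4, hf, ⟨e⟩⟩
  · have hfin : Module.Finite R B := Module.Finite.equiv e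
    refine combined_transport R d e (positivity_finite_regular R d hd B N ?_ ?_)
    · rw [← (TensorProduct.congr e (LinearEquiv.refl R N)).length_eq]
      exact hlen
    · rw [← Module.supportDim_eq_of_equiv e]
      exact hdim
  · have hfin : Module.Finite R (A ⧸ Ideal.ofList f) := Module.Finite.equiv e
    refine combined_transport R d e (positivity_flat_ci R d hd A f hf N ?_ ?_)
    · rw [← (TensorProduct.congr e (LinearEquiv.refl R N)).length_eq]
      exact hlen
    · rw [← Module.supportDim_eq_of_equiv e]
      exact hdim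

end Vale.Agent.P177
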