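import Mathlib

/-!
# Projective resolutions by finitely generated modules
-/

open CategoryTheory

namespace Vale.Agent.P177

universe u

variable (R : Type u) [CommRing R] [IsNoetherianRing R]

lemma fg_epi_surjective {M N : FGModuleCat.{u} R} (f : M ⟶ N) [Epi f] :
    Function.Surjective f.hom.hom := by
  have : Epi ((forget₂ (FGModuleCat.{u} R) (ModuleCat.{u} R)).map f) := inferInstance
  exact (ModuleCat.epi_iff_surjective _).mp this

lemma fg_free_projective (n : ℕ) : Projective (FGModuleCat.of R (Fin n → R)) where
  factors {E X} f e he := by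
    have hs := fg_epi_surjective R e
    obtain ⟨g, hg⟩ := Module.projective_lifting_property e.hom.hom f.hom.hom hs
    exact ⟨FGModuleCat.ofHom g, by ext : 1; exact hg⟩

instance : EnoughProjectives (FGModuleCat.{u} R) where
  presentation M := by
    obtain ⟨n, f, hf⟩ := Module.Finite.exists_fin' R M
    have := fg_free_projective R n
    let g : FGModuleCat.of R (Fin n → R) ⟶ M := FGModuleCat.ofHom f
    have hg : Epi g := by
      have : Epi ((forget₂ (FGModuleCat.{u} R) (ModuleCat.{u} R)).map g) :=
        (ModuleCat.epi_iff_surjective _).mpr hf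
      exact (forget₂ (FGModuleCat.{u} R) (ModuleCat.{u} R)).epi_of_epi_map this
    exact ⟨{ p := FGModuleCat.of R (Fin n → R), projective := this, f := g, epi := hg }⟩

instance : (forget₂ (FGModuleCat.{u} R) (ModuleCat.{u} R)).PreservesProjectiveObjects where
  projective_obj {Q} hQ := by
    obtain ⟨n, f, hf⟩ := Module.Finite.exists_fin' R Q
    let g : FGModuleCat.of R (Fin n → R) ⟶ Q := FGModuleCat.ofHom f
    have hg : Epi g := by
      have : Epi ((forget₂ (FGModuleCat.{u} R) (ModuleCat.{u} R)).map g) :=
        (ModuleCat.epi_iff_surjective _).mpr hf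
      exact (forget₂ (FGModuleCat.{u} R) (ModuleCat.{u} R)).epi_of_epi_map this
    let s : Q ⟶ FGModuleCat.of R (Fin n → R) := Projective.factorThru (𝟙 Q) g
    have hs : s ≫ g = 𝟙 Q := Projective.factorThru_comp _ _
    have : Module.Projective R Q := by
      refine Module.Projective.of_split s.hom.hom f ?_
      have := congrArg (fun φ => φ.hom.hom) hs
      exact this
    exact (IsProjective.iff_projective (R := R) Q).mp this

theorem exists_fg_resolution (N : ModuleCat.{u} R) [Module.Finite R N] :
    ∃ P : ProjectiveResolution N, ∀ i, Module.Finite R (P.complex.X i) := by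
  have : (forget₂ (FGModuleCat.{u} R) (ModuleCat.{u} R)).PreservesHomology := inferInstance
  let P' : ProjectiveResolution (FGModuleCat.of R N) := ProjectiveResolution.of _
  refine ⟨(forget₂ (FGModuleCat.{u} R) (ModuleCat.{u} R)).mapProjectiveResolution P', ?_⟩
  intro i
  exact (P'.complex.X i).property

end Vale.Agent.P177
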