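import Vale.Agent.Lib.P177.TorFacts

/-!
# Comparison with Mathlib's `Tor`
-/

open CategoryTheory TensorProduct MonoidalCategory

namespace Vale.Agent.P177

universe u

variable (R : Type u) [CommRing R] (A : Type u) [CommRing A] [Algebra R A]

variable (X : Type u) [AddCommGroup X] [Module A X] [Module R X] [IsScalarTower R A X]

/-- The identity map, seen as an `R`-linear equivalence. -/
noncomputable def tensCompEquiv (P : ModuleCat.{u} R) :
    (ModuleCat.of R (X ⊗[R] P) : ModuleCat.{u} R) ≃ₗ[R]
      ((ModuleCat.restrictScalars (algebraMap R A)).obj ((tens R A X).obj P) : ModuleCat.{u} R) where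
  toFun := fun x => x
  invFun := fun x => x
  left_inv := fun _ => rfl
  right_inv := fun _ => rfl
  map_add' := fun _ _ => rfl
  map_smul' := by
    intro r (x : X ⊗[R] P)
    change (r • x : X ⊗[R] P) = (algebraMap R A r) • x
    rw [algebraMap_smul]

/-- `X ⊗[R] -` computed in `R`-modules or in `A`-modules. -/
noncomputable def tensComp :
    (tensoringLeft (ModuleCat.{u} R)).obj (ModuleCat.of R X) ≅
      tens R A X ⋙ ModuleCat.restrictScalars (algebraMap R A) :=
  NatIso.ofComponents (fun P => (tensCompEquiv R A X P).toModuleIso) (by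
    intro P Q f
    rfl)

variable {N : ModuleCat.{u} R} (P : ProjectiveResolution N)

noncomputable def torIso (i : ℕ) :
    ((Tor (ModuleCat.{u} R) i).obj (ModuleCat.of R X)).obj N ≅
      (ModuleCat.restrictScalars (algebraMap R A)).obj (H R A X P.complex i) :=
  P.isoLeftDerivedObj ((tensoringLeft (ModuleCat.{u} R)).obj (ModuleCat.of R X)) i ≪≫
    (HomologicalComplex.homologyFunctor _ _ i).mapIso
      ((NatIso.mapHomologicalComplex (tensComp R A X) (ComplexShape.down ℕ)).app P.complex) ≪≫
    ((cpx R A X P.complex).sc i).mapHomologyIso (ModuleCat.restrictScalars (algebraMap R A))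

end Vale.Agent.P177
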