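import Mathlib

/-!
# Supports and chains of primes
-/

open IsLocalRing TensorProduct

namespace Vale.Agent.P177

universe u

/-- Support of a base change. -/
lemma mem_support_baseChange {R A : Type u} [CommRing R] [CommRing A] [Algebra R A]
    (N : Type u) [AddCommGroup N] [Module R N] [Module.Finite R N] (q : PrimeSpectrum A)
    (h : PrimeSpectrum.comap (algebraMap R A) q ∈ Module.support R N) :
    q ∈ Module.support A (A ⊗[R] N) := by
  rw [Module.mem_support_iff_nontrivial_residueField_tensorProduct] at h ⊢
  let p := PrimeSpectrum.comap (algebraMap R A) q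
  let K := p.asIdeal.ResidueField
  let L := q.asIdeal.ResidueField
  let φ : K →+* L := Ideal.ResidueField.map p.asIdeal q.asIdeal (algebraMap R A) rfl
  let _ : Algebra K L := φ.toAlgebra
  have htow : IsScalarTower R K L := IsScalarTower.of_algebraMap_eq (fun r => by
    have h1 : φ (algebraMap R K r) = algebraMap A L (algebraMap R A r) :=
      Ideal.ResidueField.map_algebraMap p.asIdeal q.asIdeal (algebraMap R A) rfl r
    change algebraMap R L r = φ (algebraMap R K r)
    rw [h1, ← IsScalarTower.algebraMap_apply])
  have h1 : Nontrivial (K ⊗[R] N) := h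
  have h2 : Nontrivial (L ⊗[K] (K ⊗[R] N)) := Module.FaithfullyFlat.lTensor_nontrivial K L _
  have e1 : (L ⊗[K] (K ⊗[R] N)) ≃ₗ[L] (L ⊗[R] N) :=
    TensorProduct.AlgebraTensorModule.cancelBaseChange R K L L N
  have e2 : (L ⊗[A] (A ⊗[R] N)) ≃ₗ[L] (L ⊗[R] N) :=
    TensorProduct.AlgebraTensorModule.cancelBaseChange R A L L N
  have h3 : Nontrivial (L ⊗[R] N) := e1.symm.nontrivial
  exact e2.nontrivial

/-- The annihilator of a module of finite length is contained only in maximal ideals. -/
lemma isMaximal_of_annihilator_le {A : Type u} [CommRing A] {X : Type u} [AddCommGroup X]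
    [Module A X] (h : IsFiniteLength A X) (q : Ideal A) (hq : q.IsPrime)
    (hle : Module.annihilator A X ≤ q) : q.IsMaximal := by
  induction h with
  | of_subsingleton =>
    exfalso
    rw [Module.annihilator_eq_top_iff.mpr inferInstance] at hle
    exact hq.ne_top (top_le_iff.mp hle)
  | @of_simple_quotient M _ _ N hs _ ih =>
    have hmul : Module.annihilator A N * Module.annihilator A (M ⧸ N) ≤ q := by
      refine le_trans ?_ hle
      rw [Ideal.mul_le]
      intro r hr s hs
      rw [Module.mem_annihilator] at hr hs ⊢
      intro m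
      have h1 : s • m ∈ N := by
        rw [← Submodule.Quotient.mk_eq_zero, Submodule.Quotient.mk_smul]
        exact hs _
      rw [mul_smul]
      have := hr ⟨s • m, h1⟩
      exact congrArg Subtype.val this
    rcases (Ideal.IsPrime.mul_le hq).mp hmul with h | h
    · exact ih h
    · have hmax : (Module.annihilator A (M ⧸ N)).IsMaximal :=
        _root_.IsSimpleModule.annihilator_isMaximal
      rw [← hmax.eq_of_le hq.ne_top h]
      exact hmax

section Local

variable {A : Type u} [CommRing A] [IsLocalRing A]

lemma exists_chain_to_closedPoint (l : LTSeries (PrimeSpectrum A)) :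
    ∃ l' : LTSeries (PrimeSpectrum A), l'.head = l.head ∧ l'.last = closedPoint A ∧
      l.length ≤ l'.length := by
  by_cases h : l.last = closedPoint A
  · exact ⟨l, rfl, h, le_rfl⟩
  · have hlt : l.last < closedPoint A :=
      lt_of_le_of_ne (le_maximalIdeal l.last.isPrime.ne_top) h
    exact ⟨l.snoc (closedPoint A) hlt, by simp, by simp, by simp⟩

end Local

/-- The chain of primes in a flat local algebra. -/
theorem exists_chain {R A : Type u} [CommRing R] [IsLocalRing R] [IsNoetherianRing R]
    [CommRing A] [IsLocalRing A] [IsNoetherianRing A] [Algebra R A]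
    [IsLocalHom (algebraMap R A)] [Module.Flat R A]
    (N : Type u) [AddCommGroup N] [Module R N] [Module.Finite R N] (d a s : ℕ)
    (hd : ringKrullDim R = d) (ha : ringKrullDim A = a) (hs : Module.supportDim R N = s) :
    ∃ l : LTSeries (PrimeSpectrum A), Module.annihilator A (A ⊗[R] N) ≤ l.head.asIdeal ∧
      l.last = closedPoint A ∧ a + s ≤ l.length + d := by
  obtain ⟨l₀, hl₀⟩ := Order.le_krullDim_iff.mp hs.ge
  let l₁ : LTSeries (PrimeSpectrum R) := l₀.map Subtype.val (fun _ _ h => h)
  obtain ⟨l₂, hh₂, hlast₂, hlen₂⟩ := exists_chain_to_closedPoint l₁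
  have hl₁ : l₁.length = s := hl₀
  have hover : (maximalIdeal A).LiesOver (maximalIdeal R) := by
    constructor
    exact (IsLocalRing.maximalIdeal_comap (algebraMap R A)).symm
  have hflat : Algebra.HasGoingDown R A := inferInstance
  let J : Ideal A := (maximalIdeal R).map (algebraMap R A)
  have hJle : J ≤ maximalIdeal A := by
    rw [Ideal.map_le_iff_le_comap]
    exact (Ideal.LiesOver.over (p := maximalIdeal R) (P := maximalIdeal A)).le
  have hP : ((maximalIdeal A).map (Ideal.Quotient.mk J)).IsPrime :=
    Ideal.map_isPrime_of_surjective Ideal.Quotient.mk_surjective (by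
      rw [Ideal.mk_ker]; exact hJle)
  have hht := Ideal.height_eq_height_add_of_liesOver_of_hasGoingDown (R := R) (S := A)
    (maximalIdeal R) (maximalIdeal A)
  obtain ⟨lq, hlq, hlenq⟩ :=
    ((maximalIdeal A).map (Ideal.Quotient.mk J)).exists_ltSeries_length_eq_height
  have hhR : ((maximalIdeal R).height : WithBot ℕ∞) = ringKrullDim R :=
    maximalIdeal_height_eq_ringKrullDim
  have hhA : ((maximalIdeal A).height : WithBot ℕ∞) = ringKrullDim A :=
    maximalIdeal_height_eq_ringKrullDim
  have hadd : a = d + lq.length := by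
    rw [ha] at hhA
    rw [hd] at hhR
    have h1 : (maximalIdeal A).height = (a : ℕ∞) := by exact_mod_cast hhA
    have h2 : (maximalIdeal R).height = (d : ℕ∞) := by exact_mod_cast hhR
    rw [h1, h2] at hht
    have h3 : ((maximalIdeal A).map (Ideal.Quotient.mk
      ((maximalIdeal R).map (algebraMap R A)))).height = (lq.length : ℕ∞) := hlenq.symm
    rw [h3] at hht
    exact_mod_cast hht
  let l' : LTSeries (PrimeSpectrum A) :=
    lq.map (PrimeSpectrum.comap (Ideal.Quotient.mk J))
      (RingHom.strictMono_comap_of_surjective Ideal.Quotient.mk_surjective)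
  have hmaxR : ∀ p : Ideal R, p.IsPrime → maximalIdeal R ≤ p → p = maximalIdeal R :=
    fun p hp hle => (le_antisymm (le_maximalIdeal hp.ne_top) hle)
  have hl'head : l'.head.asIdeal.LiesOver l₂.last.asIdeal := by
    constructor
    rw [hlast₂]
    symm
    apply hmaxR
    · exact Ideal.IsPrime.under R l'.head.asIdeal
    · intro r hr
      rw [Ideal.mem_comap]
      have hr' : algebraMap R A r ∈ J := Ideal.mem_map_of_mem _ hr
      simp only [l', LTSeries.head_map, PrimeSpectrum.comap_asIdeal, Ideal.mem_comap]
      rw [Ideal.Quotient.eq_zero_iff_mem.mpr hr']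
      exact Ideal.zero_mem _
  obtain ⟨L, hLlen, hLlast, hLspec⟩ := Ideal.exists_ltSeries_of_hasGoingDown l₂ l'.head.asIdeal
  have hhead : PrimeSpectrum.comap (algebraMap R A) L.head = l₂.head := by
    have h1 : (PrimeSpectrum.comap (algebraMap R A)) L.toList[0] = l₂.toList[0] := by
      rw [List.getElem_map_rev (PrimeSpectrum.comap (algebraMap R A)),
        List.getElem_of_eq hLspec _]
    rwa [L.toList_getElem_zero_eq_head, l₂.toList_getElem_zero_eq_head] at h1
  refine ⟨L.smash l' hLlast, ?_, ?_, ?_⟩
  · rw [RelSeries.head_smash]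
    apply Module.annihilator_le_of_mem_support
    apply mem_support_baseChange
    rw [hhead, hh₂]
    exact l₀.head.2
  · rw [RelSeries.last_smash]
    apply PrimeSpectrum.ext
    simp only [l', LTSeries.last_map, hlq, PrimeSpectrum.comap_asIdeal, closedPoint]
    apply le_antisymm
    · apply le_maximalIdeal
      exact (Ideal.comap_isPrime _ _).ne_top
    · exact Ideal.le_comap_map
  · have h1 : (L.smash l' hLlast).length = L.length + lq.length := rfl
    rw [h1, hLlen]
    omega

end Vale.Agent.P177
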