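import Vale.Agent.Lib.P177.PrimeChain
import Vale.Agent.Lib.P177.Supp

/-!
# Vanishing of `Tor` above the dimension over a regular local ring
-/

open CategoryTheory IsLocalRing

namespace Vale.Agent.P177

universe u

variable {R : Type u} [CommRing R] {N : ModuleCat.{u} R} (P : ProjectiveResolution N)

lemma H_subsingleton_of_exact (i : ℕ) {X Y Z : Type u} [AddCommGroup X] [Module R X]
    [AddCommGroup Y] [Module R Y] [AddCommGroup Z] [Module R Z] (f : X →ₗ[R] Y) (g : Y →ₗ[R] Z)
    (hf : Function.Injective f) (hg : Function.Surjective g) (hfg : Function.Exact f g)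
    (hX : Subsingleton (H R R X P.complex i)) (hZ : Subsingleton (H R R Z P.complex i)) :
    Subsingleton (H R R Y P.complex i) := by
  have h := H_exact_mid R R f g hfg hf hg P.complex (resolution_flat R P) i
  constructor
  have key : ∀ y : H R R Y P.complex i, y = 0 := by
    intro y
    obtain ⟨x, rfl⟩ := (h y).mp (Subsingleton.elim _ _)
    rw [Subsingleton.elim x 0, map_zero]
  intro x y
  rw [key x, key y]

lemma H_subsingleton_of_primes [IsNoetherianRing R] (i : ℕ) (X : Type u) [AddCommGroup X]
    [Module R X] [hX : Module.Finite R X]
    (h : ∀ q : PrimeSpectrum R, Module.annihilator R X ≤ q.asIdeal →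
      Subsingleton (H R R (R ⧸ q.asIdeal) P.complex i)) :
    Subsingleton (H R R X P.complex i) := by
  revert h
  induction hX using IsNoetherianRing.induction_on_isQuotientEquivQuotientPrime R with
  | subsingleton N' =>
    intro _
    have h0 : (LinearMap.id : N' →ₗ[R] N') = 0 := by
      ext x
      exact Subsingleton.elim _ _
    have h1 := HMap_id R R (X := N') P.complex i
    rw [h0, HMap_zero] at h1
    constructor
    intro x y
    have hx := congrArg (fun φ => φ x) h1
    have hy := congrArg (fun φ => φ y) h1
    simp only [LinearMap.zero_apply, LinearMap.id_apply] at hx hy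
    rw [← hx, ← hy]
  | quotient N' p e =>
    intro h
    have h1 := h p (by rw [e.annihilator_eq, Ideal.annihilator_quotient])
    exact (HEquiv R R e P.complex i).subsingleton
  | exact N₁ N₂ N₃ f g hf hg hfg h₁ h₃ =>
    intro h
    refine H_subsingleton_of_exact P i f g hf hg hfg (h₁ ?_) (h₃ ?_)
    · intro q hq
      exact h q ((LinearMap.annihilator_le_of_injective f hf).trans hq)
    · intro q hq
      exact h q ((LinearMap.annihilator_le_of_surjective g hg).trans hq)

lemma H_residueField [IsRegularLocalRing R] [Module.Finite R N]
    (hP : ∀ i, Module.Finite R (P.complex.X i)) (d : ℕ)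
    (hd : ringKrullDim R = d) (i : ℕ) (hi : d < i) :
    Subsingleton (H R R (ResidueField R) P.complex i) := by
  obtain ⟨zs, h1, h2, h3, h4⟩ := exists_regQuot R (ResidueField R) residue_surjective
  have hlen : zs.length = d := by
    rw [ringKrullDim_eq_zero_of_field, add_zero, hd] at h4
    exact_mod_cast h4
  have hS : SuppMax R R N zs R := by
    intro q hq _ _ hz
    have := h3 q hz
    have hm : maximalIdeal R ≤ q := by
      rw [← IsLocalRing.ker_residue]
      exact this
    have : q = maximalIdeal R := le_antisymm (le_maximalIdeal hq.ne_top) hm
    rw [this]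
    exact maximalIdeal.isMaximal R
  obtain ⟨_, hv, _⟩ := eul_chain P hP zs R (ResidueField R) h1 hS 0 (by
    intro i hi
    obtain ⟨i, rfl⟩ : ∃ k, i = k + 1 := ⟨i - 1, by omega⟩
    exact H_flat_subsingleton R R R P i)
  exact hv i (by omega)

theorem H_vanish [IsRegularLocalRing R] [Module.Finite R N]
    (hP : ∀ i, Module.Finite R (P.complex.X i)) (d : ℕ)
    (hd : ringKrullDim R = d) (i : ℕ) (hi : d < i)
    (X : Type u) [AddCommGroup X] [Module R X] [Module.Finite R X] :
    Subsingleton (H R R X P.complex i) := by
  have key : ∀ I : Ideal R, I.IsPrime → Subsingleton (H R R (R ⧸ I) P.complex i) := by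
    intro I
    induction I using IsNoetherian.induction with
    | hgt I IH =>
      intro hI
      by_cases hmax : I = maximalIdeal R
      · subst hmax
        exact H_residueField P hP d hd i hi
      · have hlt : I < maximalIdeal R := lt_of_le_of_ne (le_maximalIdeal hI.ne_top) hmax
        obtain ⟨x, hxm, hxI⟩ := SetLike.exists_of_lt hlt
        have hinj : Function.Injective (LinearMap.lsmul R (R ⧸ I) x) := by
          rw [← LinearMap.ker_eq_bot, LinearMap.ker_eq_bot']
          intro w hw
          obtain ⟨w, rfl⟩ := Ideal.Quotient.mk_surjective w
          have hw' : (Ideal.Quotient.mk I) (x * w) = 0 := by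
            simpa [Algebra.smul_def] using hw
          rw [Ideal.Quotient.eq_zero_iff_mem] at hw' ⊢
          exact (hI.mem_or_mem hw').resolve_left hxI
        have hQ : Subsingleton (H R R (Quo R (R ⧸ I) x) P.complex i) := by
          apply H_subsingleton_of_primes
          intro q hq
          apply IH q.asIdeal ?_ q.isPrime
          have hIq : I ≤ q.asIdeal := by
            refine le_trans ?_ hq
            refine le_trans ?_ (LinearMap.annihilator_le_of_surjective
              (LinearMap.range (LinearMap.lsmul R (R ⧸ I) x)).mkQ (Submodule.mkQ_surjective _))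
            rw [Ideal.annihilator_quotient]
          have hxq : x ∈ q.asIdeal := by
            apply hq
            rw [Module.mem_annihilator]
            intro m
            induction m using Submodule.Quotient.induction_on with
            | H y =>
              rw [← Submodule.Quotient.mk_smul, Submodule.Quotient.mk_eq_zero]
              exact ⟨y, rfl⟩
          refine lt_of_le_of_ne hIq ?_
          intro h
          rw [h] at hxI
          exact hxI hxq
        have hmid := H_exact_mid R R (LinearMap.lsmul R (R ⧸ I) x)
          (LinearMap.range (LinearMap.lsmul R (R ⧸ I) x)).mkQ (LinearMap.exact_map_mkQ_range _)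
          hinj (Submodule.mkQ_surjective _) P.complex (resolution_flat R P) i
        rw [HMap_lsmul] at hmid
        have hfin : Module.Finite R (H R R (R ⧸ I) P.complex i) :=
          H_finite R R (R ⧸ I) P.complex hP i
        have htop : (⊤ : Submodule R (H R R (R ⧸ I) P.complex i)) ≤
            maximalIdeal R • (⊤ : Submodule R (H R R (R ⧸ I) P.complex i)) := by
          intro y _
          obtain ⟨w, hw⟩ := (hmid y).mp (Subsingleton.elim _ _)
          rw [← hw]
          exact Submodule.smul_mem_smul hxm trivial
        have hbot := Submodule.eq_bot_of_le_smul_of_le_jacobson_bot (maximalIdeal R)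
          (⊤ : Submodule R (H R R (R ⧸ I) P.complex i)) hfin.fg_top htop
          (IsLocalRing.maximalIdeal_le_jacobson _)
        constructor
        have hz : ∀ y : H R R (R ⧸ I) P.complex i, y = 0 := by
          intro y
          have hy : y ∈ (⊤ : Submodule R (H R R (R ⧸ I) P.complex i)) := trivial
          rw [hbot] at hy
          exact (Submodule.mem_bot R).mp hy
        intro y w
        rw [hz y, hz w]
  exact H_subsingleton_of_primes P i X (fun q _ => key q.asIdeal q.isPrime)

end Vale.Agent.P177
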