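import Vale.Agent.Lib.P177.Defs
import Vale.Agent.Lib.P177.Vanish
import Vale.Agent.Lib.P177.FGRes
import Vale.Agent.Lib.P177.TorCompare

/-!
# The core positivity theorem
-/

open CategoryTheory IsLocalRing TensorProduct

namespace Vale.Agent.P177

universe u

section

variable {R A B : Type u} [CommRing R] [CommRing A] [CommRing B] [Algebra R A] [Algebra A B]
  [Algebra R B] [IsScalarTower R A B]

lemma isFiniteLength_of_tower {X : Type u} [AddCommGroup X] [Module R X] [Module B X]
    [IsScalarTower R B X] (h : IsFiniteLength R X) : IsFiniteLength B X := by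
  rw [isFiniteLength_iff_isNoetherian_isArtinian] at h ⊢
  exact h.imp (isNoetherian_of_tower R) (isArtinian_of_tower R)

/-- The support condition follows from the finiteness of the length of `B ⊗ N`. -/
lemma suppMax_of_finiteLength (hsurj : Function.Surjective (algebraMap A B)) (zs : List A)
    (hker : ∀ q : Ideal A, (∀ z ∈ zs, z ∈ q) → RingHom.ker (algebraMap A B) ≤ q)
    (N : ModuleCat.{u} R) [Module.Finite R N] (hN : IsFiniteLength R (B ⊗[R] N)) :
    SuppMax R A N zs A := by
  intro q hq hann _ hz
  have hk := hker q hz
  have hprime : (q.map (algebraMap A B)).IsPrime :=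
    Ideal.map_isPrime_of_surjective hsurj hk
  have hcomap : (q.map (algebraMap A B)).comap (algebraMap A B) = q := by
    rw [Ideal.comap_map_of_surjective' _ hsurj]
    exact sup_eq_left.mpr hk
  let qB : PrimeSpectrum B := ⟨q.map (algebraMap A B), hprime⟩
  have hmem : PrimeSpectrum.comap (algebraMap R B) qB ∈ Module.support R N := by
    rw [Module.mem_support_iff_of_finite]
    intro r hr
    simp only [PrimeSpectrum.comap_asIdeal, Ideal.mem_comap, qB]
    rw [IsScalarTower.algebraMap_apply R A B]
    exact Ideal.mem_map_of_mem _ (hann r hr)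
  have hsupp := mem_support_baseChange (R := R) (A := B) N qB hmem
  have hle := Module.annihilator_le_of_mem_support hsupp
  have hmax : (q.map (algebraMap A B)).IsMaximal :=
    isMaximal_of_annihilator_le (isFiniteLength_of_tower (R := R) (B := B) hN) qB.asIdeal
      qB.isPrime hle
  rw [← hcomap]
  exact Ideal.comap_isMaximal_of_surjective _ hsurj

end

section

variable {R A B : Type u} [CommRing R] [IsLocalRing R] [IsNoetherianRing R]
  [CommRing A] [IsLocalRing A] [IsNoetherianRing A] [CommRing B] [Algebra R A]
  [IsLocalHom (algebraMap R A)] [Module.Flat R A] [Algebra A B] [Algebra R B]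
  [IsScalarTower R A B]

/-- Positivity of the Euler characteristic over `A`. -/
theorem eul_pos (hsurj : Function.Surjective (algebraMap A B)) (zs : List A)
    (hreg : RegQuot zs A B)
    (hker : ∀ q : Ideal A, (∀ z ∈ zs, z ∈ q) → RingHom.ker (algebraMap A B) ≤ q)
    (hzs : ∀ z ∈ zs, z ∈ maximalIdeal A)
    (N : ModuleCat.{u} R) [Module.Finite R N] (hN : IsFiniteLength R (B ⊗[R] N))
    (P : ProjectiveResolution N) (hP : ∀ i, Module.Finite R (P.complex.X i))
    (d a s : ℕ) (hd : ringKrullDim R = d) (ha : ringKrullDim A = a)
    (hs : Module.supportDim R N = s) (hle : zs.length + d ≤ a + s) :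
    (∀ n, zs.length + 1 ≤ n → 0 < eul R A B P n []) ∧
      (∀ i, Good ([] : List A) (H R A B P.complex i)) ∧
      (∀ i, zs.length < i → Subsingleton (H R A B P.complex i)) := by
  have hS := suppMax_of_finiteLength hsurj zs hker N hN
  have hvan : ∀ i, 0 < i → Subsingleton (H R A A P.complex i) := by
    intro i hi
    obtain ⟨i, rfl⟩ : ∃ k, i = k + 1 := ⟨i - 1, by omega⟩
    exact H_flat_subsingleton R A A P i
  obtain ⟨h1, h2, h3⟩ := eul_chain P hP zs A B hreg hS 0 hvan
  refine ⟨?_, h3, fun i hi => h2 i (by omega)⟩
  intro n hn
  rw [h1 n (by omega)]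
  obtain ⟨e⟩ := H_zero_equiv R A A P
  obtain ⟨l, hl1, hl2, hl3⟩ := exists_chain (R := R) (A := A) N d a s hd ha hs
  have hG : Good zs (H R A A P.complex 0) := hS.good P hP 0
  have hpos := (posProp zs hzs (H R A A P.complex 0) hG).2 l
    (by rw [e.annihilator_eq]; exact hl1) hl2 (by omega)
  obtain ⟨n, rfl⟩ : ∃ k, n = k + 1 := ⟨n - 1, by omega⟩
  unfold eul
  rw [Finset.sum_range_succ', Finset.sum_eq_zero]
  · simpa using hpos
  · intro i _
    have := hvan (i + 1) (by omega)
    rw [nsym_of_subsingleton, mul_zero]

end

section

variable {R A B : Type u} [CommRing R] [IsRegularLocalRing R]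
  [CommRing A] [IsLocalRing A] [IsNoetherianRing A] [CommRing B] [Algebra R A]
  [IsLocalHom (algebraMap R A)] [Module.Flat R A] [Algebra A B] [Algebra R B]
  [IsScalarTower R A B] [Nontrivial B] [Module.Finite R B]

lemma finite_residueField (hsurj : Function.Surjective (algebraMap A B)) :
    Module.Finite (ResidueField R) (ResidueField A) := by
  have hker : RingHom.ker (algebraMap A B) ≤ RingHom.ker (residue A) := by
    rw [ker_residue]
    exact le_maximalIdeal (RingHom.ker_ne_top _)
  let f : B →+* ResidueField A :=
    (Ideal.Quotient.lift (RingHom.ker (algebraMap A B)) (residue A) hker).comp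
      (RingHom.quotientKerEquivOfSurjective hsurj).symm.toRingHom
  have hf : ∀ x : A, f (algebraMap A B x) = residue A x := by
    intro x
    have h1 : (RingHom.quotientKerEquivOfSurjective hsurj).symm (algebraMap A B x) =
        Ideal.Quotient.mk _ x := by
      rw [RingEquiv.symm_apply_eq]
      rfl
    change (Ideal.Quotient.lift (RingHom.ker (algebraMap A B)) (residue A) hker)
      ((RingHom.quotientKerEquivOfSurjective hsurj).symm (algebraMap A B x)) = _
    rw [h1]
    rfl
  let g : B →ₗ[R] ResidueField A :=
    { toFun := f
      map_add' := f.map_add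
      map_smul' := by
        intro r b
        rw [Algebra.smul_def, map_mul, IsScalarTower.algebraMap_apply R A B, hf,
          RingHom.id_apply, Algebra.smul_def]
        rfl }
  have hg : Function.Surjective g := by
    intro y
    obtain ⟨x, rfl⟩ := residue_surjective y
    exact ⟨algebraMap A B x, hf x⟩
  have h1 : Module.Finite R (ResidueField A) := Module.Finite.of_surjective g hg
  exact Module.Finite.of_restrictScalars_finite R (ResidueField R) (ResidueField A)

lemma length_tor_eq (N : ModuleCat.{u} R) (P : ProjectiveResolution N) (i : ℕ) :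
    Module.length R (torModule R i (ModuleCat.of R B) N) =
      Module.length A (H R A B P.complex i) *
        Module.length (ResidueField R) (ResidueField A) := by
  have e : torModule R i (ModuleCat.of R B) N ≃ₗ[R]
      (ModuleCat.restrictScalars (algebraMap R A)).obj (H R A B P.complex i) :=
    (torIso R A B P i).toLinearEquiv
  rw [e.length_eq]
  let _ : Module R (H R A B P.complex i) := Module.compHom _ (algebraMap R A)
  have : IsScalarTower R A (H R A B P.complex i) := by
    constructor
    intro r x y
    change (r • x) • y = algebraMap R A r • (x • y)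
    rw [Algebra.smul_def, mul_smul]
  exact IsLocalRing.length_restrictScalars R A (H R A B P.complex i)

/-- **Core theorem.** -/
theorem core (hsurj : Function.Surjective (algebraMap A B)) (zs : List A)
    (hreg : RegQuot zs A B)
    (hker : ∀ q : Ideal A, (∀ z ∈ zs, z ∈ q) → RingHom.ker (algebraMap A B) ≤ q)
    (hzs : ∀ z ∈ zs, z ∈ maximalIdeal A)
    (N : ModuleCat.{u} R) [Module.Finite R N] (hN : IsFiniteLength R (B ⊗[R] N))
    (d a s : ℕ) (hd : ringKrullDim R = d) (ha : ringKrullDim A = a)
    (hs : Module.supportDim R N = s) (hle : zs.length + d ≤ a + s) :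
    (∀ i, Module.length R (torModule R i (ModuleCat.of R B) N) ≠ ⊤) ∧
      (∀ i, d < i → Subsingleton (torModule R i (ModuleCat.of R B) N)) ∧
      0 < serreChi R d (ModuleCat.of R B) N := by
  obtain ⟨P, hP⟩ := exists_fg_resolution R N
  obtain ⟨h1, h2, h3⟩ := eul_pos hsurj zs hreg hker hzs N hN P hP d a s hd ha hs hle
  have hfin := finite_residueField (R := R) hsurj
  have hκ : Module.length (ResidueField R) (ResidueField A) =
      (Module.finrank (ResidueField R) (ResidueField A) : ℕ∞) := Module.length_eq_finrank _ _
  have hκpos : 0 < Module.finrank (ResidueField R) (ResidueField A) := Module.finrank_pos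
  have hlen : ∀ i, Module.length R (torModule R i (ModuleCat.of R B) N) =
      Module.length A (H R A B P.complex i) *
        (Module.finrank (ResidueField R) (ResidueField A) : ℕ∞) := by
    intro i
    rw [length_tor_eq (R := R) (A := A) (B := B) N P i, hκ]
  have hvan : ∀ i, d < i → Subsingleton (torModule R i (ModuleCat.of R B) N) := by
    intro i hi
    have hv := H_vanish P hP d hd i hi B
    have e : torModule R i (ModuleCat.of R B) N ≃ₗ[R]
        (ModuleCat.restrictScalars (algebraMap R R)).obj (H R R B P.complex i) :=
      (torIso R R B P i).toLinearEquiv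
    have hv' : Subsingleton
      ((ModuleCat.restrictScalars (algebraMap R R)).obj (H R R B P.complex i)) := hv
    exact e.subsingleton
  refine ⟨?_, hvan, ?_⟩
  · intro i
    rw [hlen i]
    obtain ⟨m, hm⟩ := ENat.ne_top_iff_exists.mp (h2 i).length_ne_top
    rw [← hm, ← Nat.cast_mul]
    exact ENat.natCast_ne_top _
  · have hzero : ∀ i, d < i → Module.length R (torModule R i (ModuleCat.of R B) N) = 0 := by
      intro i hi
      have := hvan i hi
      exact Module.length_eq_zero
    set n := max (d + 1) (zs.length + 1) with hn
    have hsum : serreChi R d (ModuleCat.of R B) N = ∑ i ∈ Finset.range n,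
        (-1 : ℤ) ^ i * ((Module.length R (torModule R i (ModuleCat.of R B) N)).toNat : ℤ) := by
      unfold serreChi
      refine Finset.sum_subset (Finset.range_subset_range.mpr (le_max_left _ _)) ?_
      intro i _ hi
      rw [Finset.mem_range, not_lt] at hi
      rw [hzero i (by omega)]
      simp
    have heul : serreChi R d (ModuleCat.of R B) N =
        (Module.finrank (ResidueField R) (ResidueField A) : ℤ) * eul R A B P n [] := by
      rw [hsum]
      unfold eul
      rw [Finset.mul_sum]
      refine Finset.sum_congr rfl (fun i _ => ?_)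
      rw [nsym_nil, hlen i, ENat.toNat_mul, ENat.toNat_natCast]
      push_cast
      ring
    rw [heul]
    exact mul_pos (by exact_mod_cast hκpos) (h1 n (le_max_right _ _))

end

end Vale.Agent.P177
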