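import Mathlib

open CategoryTheory

namespace Vale.Agent.P177

universe u

/-- The `i`-th Tor module `Tor_i^R(M, N)`, as in Mathlib. -/
noncomputable abbrev torModule (R : Type u) [CommRing R] (i : ℕ) (M N : ModuleCat.{u} R) :
    ModuleCat.{u} R :=
  ((Tor (ModuleCat.{u} R) i).obj M).obj N

/-- Serre's intersection multiplicity
`χ^R(M, N) = ∑_{i=0}^{d} (-1)^i length_R Tor_i^R(M, N)`, where `d` is the dimension of `R`. -/
noncomputable def serreChi (R : Type u) [CommRing R] (d : ℕ) (M N : ModuleCat.{u} R) : ℤ :=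
  ∑ i ∈ Finset.range (d + 1),
    (-1 : ℤ) ^ i * ((Module.length R (torModule R i M N)).toNat : ℤ)

end Vale.Agent.P177
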