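import Vale.Agent.Lib.P177.TorComplex

/-!
# Finiteness and annihilators of the homology modules `H R A X K i`
-/

open CategoryTheory TensorProduct

namespace Vale.Agent.P177

universe u

variable (R : Type u) [CommRing R] (A : Type u) [CommRing A] [Algebra R A]

variable (X : Type u) [AddCommGroup X] [Module A X] [Module R X] [IsScalarTower R A X]

lemma finite_tensor [Module.Finite A X] (Q : Type u) [AddCommGroup Q] [Module R Q]
    [Module.Finite R Q] : Module.Finite A (X ⊗[R] Q) := by
  obtain ⟨n, f, hf⟩ := Module.Finite.exists_fin' R Q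
  have h1 : Module.Finite A (X ⊗[R] (Fin n → R)) :=
    Module.Finite.equiv (TensorProduct.piScalarRight R A X (Fin n)).symm
  exact Module.Finite.of_surjective (TensorProduct.AlgebraTensorModule.lTensor A X f)
    (LinearMap.lTensor_surjective X hf)

lemma H_finite [IsNoetherianRing A] [Module.Finite A X] (K : ChainComplex (ModuleCat.{u} R) ℕ)
    (hK : ∀ i, Module.Finite R (K.X i)) (i : ℕ) : Module.Finite A (H R A X K i) := by
  have := hK i
  have h0 : Module.Finite A (X ⊗[R] (K.X i)) := finite_tensor R A X (K.X i)
  have h1 : Module.Finite A ((cpx R A X K).X i) := h0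
  have h2 : Module.Finite A ((cpx R A X K).cycles i) :=
    Module.Finite.of_injective ((cpx R A X K).iCycles i).hom
      ((ModuleCat.mono_iff_injective _).mp inferInstance)
  exact Module.Finite.of_surjective ((cpx R A X K).homologyπ i).hom
      ((ModuleCat.epi_iff_surjective _).mp inferInstance)

variable {X} in
lemma lsmul_H_eq_zero (z : A) (hz : LinearMap.lsmul A X z = 0)
    (K : ChainComplex (ModuleCat.{u} R) ℕ) (i : ℕ) : LinearMap.lsmul A (H R A X K i) z = 0 := by
  rw [← HMap_lsmul, hz, HMap_zero]

lemma annihilator_le_H (K : ChainComplex (ModuleCat.{u} R) ℕ) (i : ℕ) :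
    Module.annihilator A X ≤ Module.annihilator A (H R A X K i) := by
  intro z hz
  rw [Module.mem_annihilator] at hz ⊢
  intro m
  have : LinearMap.lsmul A X z = 0 := by ext x; exact hz x
  exact congrArg (fun φ => φ m) (lsmul_H_eq_zero R A z this K i)

variable {N : ModuleCat.{u} R} (P : ProjectiveResolution N)

lemma algebraMap_mem_annihilator_H (r : R) (hr : r ∈ Module.annihilator R N) (i : ℕ) :
    algebraMap R A r ∈ Module.annihilator A (H R A X P.complex i) := by
  have h0 : (r • 𝟙 P.complex) ≫ P.π = 0 := by
    rw [Linear.smul_comp, Category.id_comp]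
    ext : 1
    rw [HomologicalComplex.smul_f_apply, HomologicalComplex.zero_f]
    ext x
    have : ∀ y : N, r • y = 0 := fun y => (Module.mem_annihilator.mp hr) y
    exact this _
  have hom := ProjectiveResolution.liftHomotopyZero (r • 𝟙 P.complex) h0
  have hom' := (tens R A X).mapHomotopy hom
  have h1 := hom'.homologyMap_eq i
  rw [Functor.map_zero, HomologicalComplex.homologyMap_zero] at h1
  have h2 : ((tens R A X).mapHomologicalComplex (ComplexShape.down ℕ)).map (r • 𝟙 P.complex) =
      cpxMap R A (LinearMap.lsmul A X (algebraMap R A r)) P.complex := by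
    ext i : 1
    rw [cpxMap_f]
    ext : 1
    change TensorProduct.AlgebraTensorModule.lTensor A X
      (r • (LinearMap.id : P.complex.X i →ₗ[R] P.complex.X i)) =
      TensorProduct.AlgebraTensorModule.rTensor R (P.complex.X i)
        (LinearMap.lsmul A X (algebraMap R A r))
    apply TensorProduct.AlgebraTensorModule.ext
    intro x p
    change x ⊗ₜ[R] (r • p) = (algebraMap R A r • x) ⊗ₜ[R] p
    rw [algebraMap_smul, TensorProduct.smul_tmul]
  rw [h2] at h1
  rw [Module.mem_annihilator]
  intro m
  have h3 := HMap_lsmul R A (X := X) (algebraMap R A r) P.complex i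
  have h4 : HMap R A (LinearMap.lsmul A X (algebraMap R A r)) P.complex i = 0 :=
    congrArg ModuleCat.Hom.hom h1
  rw [h4] at h3
  have := congrArg (fun φ => φ m) h3
  exact this.symm

lemma subsingleton_of_isZero {M : ModuleCat.{u} A} (h : Limits.IsZero M) : Subsingleton M :=
  ModuleCat.subsingleton_of_isZero h

lemma H_flat_subsingleton [Module.Flat R X] (i : ℕ) :
    Subsingleton (H R A X P.complex (i + 1)) := by
  have h1 : Function.Exact (P.complex.d (i + 2) (i + 1)).hom (P.complex.d (i + 1) i).hom :=
    (ShortComplex.ShortExact.moduleCat_exact_iff_function_exact _).mp (P.exact_succ i)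
  have h2 : Function.Exact ((P.complex.d (i + 2) (i + 1)).hom.lTensor X)
      ((P.complex.d (i + 1) i).hom.lTensor X) := Module.Flat.lTensor_exact X h1
  have h3 : (cpx R A X P.complex).ExactAt (i + 1) := by
    rw [HomologicalComplex.exactAt_iff' _ (i + 2) (i + 1) i (by simp) (by simp)]
    exact (ShortComplex.ShortExact.moduleCat_exact_iff_function_exact _).mpr h2
  exact subsingleton_of_isZero A ((HomologicalComplex.exactAt_iff_isZero_homology _ _).mp h3)

/-- `H 0 X` is `X ⊗ N`. -/
lemma H_zero_equiv : Nonempty (H R A X P.complex 0 ≃ₗ[A] X ⊗[R] N) := by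
  -- the complex in degrees one and zero
  let C := cpx R A X P.complex
  have hπ : Epi (P.π.f 0) := inferInstance
  have h1 : Function.Exact (P.complex.d 1 0).hom (P.π.f 0).hom :=
    (ShortComplex.ShortExact.moduleCat_exact_iff_function_exact _).mp P.exact₀
  have h2 : Function.Surjective (P.π.f 0).hom := (ModuleCat.epi_iff_surjective _).mp hπ
  let π₀ : P.complex.X 0 →ₗ[R] N := (P.π.f 0).hom
  have h3 : Function.Exact (TensorProduct.AlgebraTensorModule.lTensor A X (P.complex.d 1 0).hom)
      (TensorProduct.AlgebraTensorModule.lTensor A X π₀) := lTensor_exact X h1 h2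
  have h4 : Function.Surjective (TensorProduct.AlgebraTensorModule.lTensor A X π₀) :=
    LinearMap.lTensor_surjective X h2
  let S : ShortComplex (ModuleCat.{u} A) := ShortComplex.mk (C.d 1 0) (C.pOpcycles 0) (by simp)
  have h5 : S.Exact := ShortComplex.exact_of_g_is_cokernel _ (C.opcyclesIsCokernel 1 0 (by simp))
  let q : C.X 0 ⟶ C.homology 0 := C.pOpcycles 0 ≫ (ChainComplex.isoHomologyι₀ C).inv
  let S' : ShortComplex (ModuleCat.{u} A) := ShortComplex.mk (C.d 1 0) q (by
    simp only [q]
    rw [← Category.assoc, HomologicalComplex.d_pOpcycles, Limits.zero_comp])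
  have h6 : S'.Exact := by
    refine ShortComplex.exact_of_iso (S₁ := S) ?_ h5
    exact ShortComplex.isoMk (Iso.refl _) (Iso.refl _) (ChainComplex.isoHomologyι₀ C).symm
      (by simp [S, S']) (by simp [S, S', q])
  have h7 : Function.Exact (TensorProduct.AlgebraTensorModule.lTensor A X (P.complex.d 1 0).hom)
      q.hom :=
    (ShortComplex.ShortExact.moduleCat_exact_iff_function_exact _).mp h6
  have h8 : Function.Surjective q.hom := (ModuleCat.epi_iff_surjective _).mp inferInstance
  have e1 := h7.linearEquivOfSurjective h8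
  have e2 := h3.linearEquivOfSurjective h4
  exact ⟨e1.symm.trans e2⟩

end Vale.Agent.P177
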