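import Vale.Agent.Lib.P177.Northcott
import Vale.Agent.Lib.P177.TorFacts

/-!
# Euler characteristics along a regular sequence
-/

open CategoryTheory TensorProduct

namespace Vale.Agent.P177

universe u

variable (R : Type u) [CommRing R] (A : Type u) [CommRing A] [Algebra R A]

lemma resolution_flat {N : ModuleCat.{u} R} (P : ProjectiveResolution N) (i : ℕ) :
    Module.Flat R (P.complex.X i) := by
  have h : Projective (P.complex.X i) := P.projective i
  have : Module.Projective R (P.complex.X i) := (IsProjective.iff_projective (R := R) _).mpr h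
  infer_instance

section OneStep

variable (X : Type u) [AddCommGroup X] [Module A X] [Module R X] [IsScalarTower R A X]
  (z : A) (hz : Function.Injective (LinearMap.lsmul A X z))
  {N : ModuleCat.{u} R} (P : ProjectiveResolution N)

/-- abbreviation for `X / z X`. -/
abbrev Quo : Type u := X ⧸ LinearMap.range (LinearMap.lsmul A X z)

include hz in
lemma nsym_H_succ [IsNoetherianRing A] (zs : List A) (i : ℕ)
    (hG : Good zs (H R A (Quo A X z) P.complex (i + 1))) :
    nsym zs (H R A (Quo A X z) P.complex (i + 1)) =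
      nsym zs (Quo A (H R A X P.complex (i + 1)) z) +
      nsym zs (LinearMap.ker (LinearMap.lsmul A (H R A X P.complex i) z)) := by
  let g : X →ₗ[A] Quo A X z := (LinearMap.range (LinearMap.lsmul A X z)).mkQ
  have hfg : Function.Exact (LinearMap.lsmul A X z) g := LinearMap.exact_map_mkQ_range _
  have hg : Function.Surjective g := Submodule.mkQ_surjective _
  have hmid := H_exact_mid R A (LinearMap.lsmul A X z) g hfg hz hg P.complex
    (resolution_flat R P) (i + 1)
  obtain ⟨δ, hδ₁, hδ₂⟩ := H_exists_delta R A (LinearMap.lsmul A X z) g hfg hz hg P.complex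
    (resolution_flat R P) i
  rw [HMap_lsmul] at hmid hδ₂
  have hle : LinearMap.range (LinearMap.lsmul A (H R A X P.complex (i + 1)) z) ≤
      LinearMap.ker (HMap R A g P.complex (i + 1)) := by
    rw [hmid.linearMap_ker_eq]
  let g' : Quo A (H R A X P.complex (i + 1)) z →ₗ[A] H R A (Quo A X z) P.complex (i + 1) :=
    Submodule.liftQ _ (HMap R A g P.complex (i + 1)) hle
  let δ' : H R A (Quo A X z) P.complex (i + 1) →ₗ[A]
      LinearMap.ker (LinearMap.lsmul A (H R A X P.complex i) z) :=
    δ.codRestrict _ (fun x => (hδ₂ _).mpr ⟨x, rfl⟩)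
  have hinj : Function.Injective g' := by
    rw [← LinearMap.ker_eq_bot]
    apply Submodule.ker_liftQ_eq_bot
    rw [hmid.linearMap_ker_eq]
  have hsurj : Function.Surjective δ' := by
    rintro ⟨y, hy⟩
    obtain ⟨x, hx⟩ := (hδ₂ y).mp hy
    exact ⟨x, Subtype.ext hx⟩
  have hex : Function.Exact g' δ' := by
    intro x
    constructor
    · intro h
      have h' : δ x = 0 := congrArg Subtype.val h
      obtain ⟨y, hy⟩ := (hδ₁ x).mp h'
      exact ⟨Submodule.Quotient.mk y, hy⟩
    · rintro ⟨y, rfl⟩
      induction y using Submodule.Quotient.induction_on with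
      | H y =>
        apply Subtype.ext
        exact (hδ₁ _).mpr ⟨y, rfl⟩
  exact additive_nsym zs _ _ _ g' δ' hinj hsurj hex hG

include hz in
lemma nsym_H_zero [IsNoetherianRing A] (zs : List A)
    (hG : Good zs (H R A (Quo A X z) P.complex 0)) :
    nsym zs (H R A (Quo A X z) P.complex 0) = nsym zs (Quo A (H R A X P.complex 0) z) := by
  let g : X →ₗ[A] Quo A X z := (LinearMap.range (LinearMap.lsmul A X z)).mkQ
  have hfg : Function.Exact (LinearMap.lsmul A X z) g := LinearMap.exact_map_mkQ_range _
  have hg : Function.Surjective g := Submodule.mkQ_surjective _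
  have hmid := H_exact_mid R A (LinearMap.lsmul A X z) g hfg hz hg P.complex
    (resolution_flat R P) 0
  have hsurj := H_surjective_zero R A (LinearMap.lsmul A X z) g hfg hz hg P.complex
    (resolution_flat R P)
  rw [HMap_lsmul] at hmid
  exact (nsym_equiv (hmid.linearEquivOfSurjective hsurj) hG).symm

include hz in
lemma H_succ_subsingleton (i : ℕ) (h₁ : Subsingleton (H R A X P.complex (i + 1)))
    (h₀ : Subsingleton (H R A X P.complex i)) :
    Subsingleton (H R A (Quo A X z) P.complex (i + 1)) := by
  let g : X →ₗ[A] Quo A X z := (LinearMap.range (LinearMap.lsmul A X z)).mkQ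
  have hfg : Function.Exact (LinearMap.lsmul A X z) g := LinearMap.exact_map_mkQ_range _
  have hg : Function.Surjective g := Submodule.mkQ_surjective _
  obtain ⟨δ, hδ₁, hδ₂⟩ := H_exists_delta R A (LinearMap.lsmul A X z) g hfg hz hg P.complex
    (resolution_flat R P) i
  constructor
  have key : ∀ x : H R A (Quo A X z) P.complex (i + 1), x = 0 := by
    intro x
    obtain ⟨y, rfl⟩ := (hδ₁ x).mp (Subsingleton.elim _ _)
    rw [Subsingleton.elim y 0, map_zero]
  intro x y
  rw [key x, key y]

/-- The partial Euler characteristic. -/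
noncomputable def eul (n : ℕ) (zs : List A) : ℤ :=
  ∑ i ∈ Finset.range n, (-1) ^ i * nsym zs (H R A X P.complex i)

include hz in
lemma eul_step [IsNoetherianRing A] (zs : List A) (n : ℕ)
    (hG : ∀ i, Good zs (H R A (Quo A X z) P.complex i))
    (hn : Subsingleton (H R A X P.complex n)) :
    eul R A (Quo A X z) P (n + 1) zs = eul R A X P (n + 1) (z :: zs) := by
  unfold eul
  simp only [nsym_cons]
  have h1 : ∑ i ∈ Finset.range (n + 1), (-1 : ℤ) ^ i * nsym zs (H R A (Quo A X z) P.complex i) =
      ∑ i ∈ Finset.range (n + 1), (-1 : ℤ) ^ i * nsym zs (Quo A (H R A X P.complex i) z) -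
      ∑ i ∈ Finset.range n, (-1 : ℤ) ^ i *
        nsym zs (LinearMap.ker (LinearMap.lsmul A (H R A X P.complex i) z)) := by
    rw [Finset.sum_range_succ', Finset.sum_range_succ' (n := n)]
    rw [nsym_H_zero R A X z hz P zs (hG 0)]
    have : ∀ i ∈ Finset.range n, (-1 : ℤ) ^ (i + 1) *
        nsym zs (H R A (Quo A X z) P.complex (i + 1)) =
        (-1 : ℤ) ^ (i + 1) * nsym zs (Quo A (H R A X P.complex (i + 1)) z) -
        (-1 : ℤ) ^ i * nsym zs (LinearMap.ker (LinearMap.lsmul A (H R A X P.complex i) z)) := by
      intro i _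
      rw [nsym_H_succ R A X z hz P zs i (hG (i + 1))]
      ring
    rw [Finset.sum_congr rfl this, Finset.sum_sub_distrib]
    ring
  have h2 : nsym zs (LinearMap.ker (LinearMap.lsmul A (H R A X P.complex n) z)) = 0 :=
    nsym_of_subsingleton zs _
  have h3 : ∑ i ∈ Finset.range n, (-1 : ℤ) ^ i *
        nsym zs (LinearMap.ker (LinearMap.lsmul A (H R A X P.complex i) z)) =
      ∑ i ∈ Finset.range (n + 1), (-1 : ℤ) ^ i *
        nsym zs (LinearMap.ker (LinearMap.lsmul A (H R A X P.complex i) z)) := by
    rw [Finset.sum_range_succ, h2, mul_zero, add_zero]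
  rw [h1, h3, ← Finset.sum_sub_distrib]
  refine Finset.sum_congr rfl (fun i _ => ?_)
  ring

end OneStep

end Vale.Agent.P177
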