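import Mathlib

/-!
# A finite algebra over a regular local ring is a quotient of a flat regular local algebra
-/

open IsLocalRing Polynomial

namespace Vale.Agent.P177

universe u

theorem exists_flat_regular_step (R B : Type u) [CommRing R] [IsRegularLocalRing R]
    [CommRing B] [IsLocalRing B] [Algebra R B] [Module.Finite R B] (b : B) :
    ∃ (R₁ : Type u) (_ : CommRing R₁) (_ : Algebra R R₁) (_ : Algebra R₁ B)
      (_ : IsScalarTower R R₁ B) (_ : IsRegularLocalRing R₁), Module.Flat R R₁ ∧
      ∃ t : R₁, algebraMap R₁ B t = b := by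
  let φ : R[X] →ₐ[R] B := aeval b
  let 𝔫 : Ideal R[X] := (maximalIdeal B).comap φ
  have h𝔫 : 𝔫.IsPrime := Ideal.comap_isPrime _ _
  have hmax : ((maximalIdeal B).comap (algebraMap R B)).IsMaximal :=
    Ideal.isMaximal_comap_of_isIntegral_of_isMaximal (maximalIdeal B)
  have hcomap : 𝔫.comap C = maximalIdeal R := by
    have h1 : 𝔫.comap C = (maximalIdeal B).comap (algebraMap R B) := by
      ext r
      simp [𝔫, φ]
    rw [h1]
    exact eq_maximalIdeal hmax
  have hreg : IsRegularLocalRing (Localization.AtPrime 𝔫) :=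
    Polynomial.isRegularLocalRing_localization_atPrime_of_comap_eq_maximalIdeal R 𝔫 hcomap
  have hunit : ∀ y : 𝔫.primeCompl, IsUnit (φ.toRingHom y) := by
    intro y
    by_contra h
    exact y.2 ((mem_maximalIdeal _).mpr h)
  let ψ : Localization.AtPrime 𝔫 →+* B :=
    IsLocalization.lift (M := 𝔫.primeCompl) (g := φ.toRingHom) hunit
  let _ : Algebra (Localization.AtPrime 𝔫) B := ψ.toAlgebra
  have hψ : ∀ y : R[X], algebraMap (Localization.AtPrime 𝔫) B
      (algebraMap R[X] (Localization.AtPrime 𝔫) y) = φ y := fun y =>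
    IsLocalization.lift_eq (M := 𝔫.primeCompl) (g := φ.toRingHom) hunit y
  have htower : IsScalarTower R (Localization.AtPrime 𝔫) B :=
    IsScalarTower.of_algebraMap_eq (fun r => by
      rw [IsScalarTower.algebraMap_apply R R[X] (Localization.AtPrime 𝔫), hψ]
      simp [φ])
  have hflat1 : Module.Flat R[X] (Localization.AtPrime 𝔫) := IsLocalization.flat _ 𝔫.primeCompl
  have hflat : Module.Flat R (Localization.AtPrime 𝔫) := Module.Flat.trans R R[X] _
  refine ⟨Localization.AtPrime 𝔫, inferInstance, inferInstance, inferInstance, htower, hreg,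
    hflat, algebraMap R[X] _ X, ?_⟩
  rw [hψ]
  simp [φ]

theorem exists_flat_regular (n : ℕ) : ∀ (R B : Type u) [CommRing R] [IsRegularLocalRing R]
    [CommRing B] [IsLocalRing B] [Algebra R B] [Module.Finite R B] (s : Finset B),
    s.card = n → Algebra.adjoin R (s : Set B) = ⊤ →
    ∃ (A : Type u) (_ : CommRing A) (_ : Algebra R A) (_ : Algebra A B)
      (_ : IsScalarTower R A B) (_ : IsRegularLocalRing A), Module.Flat R A ∧
      Function.Surjective (algebraMap A B) := by
  classical
  induction n with
  | zero =>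
    intro R B _ _ _ _ _ _ s hs hadj
    refine ⟨R, inferInstance, inferInstance, inferInstance, inferInstance, inferInstance,
      inferInstance, ?_⟩
    rw [Finset.card_eq_zero] at hs
    subst hs
    simp only [Finset.coe_empty, Algebra.adjoin_empty] at hadj
    intro b
    have : b ∈ (⊥ : Subalgebra R B) := by rw [hadj]; trivial
    exact Algebra.mem_bot.mp this
  | succ n IH =>
    intro R B _ _ _ _ _ _ s hs hadj
    obtain ⟨b, hb⟩ : s.Nonempty := Finset.card_pos.mp (by omega)
    obtain ⟨R₁, j1, j2, j3, j4, j5, hflat1, t, ht⟩ := exists_flat_regular_step R B b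
    have hfin : Module.Finite R₁ B := Module.Finite.of_restrictScalars_finite R R₁ B
    have hadj' : Algebra.adjoin R₁ ((s.erase b : Finset B) : Set B) = ⊤ := by
      rw [eq_top_iff]
      intro x _
      have hx : x ∈ Algebra.adjoin R (s : Set B) := by rw [hadj]; trivial
      have hle : Algebra.adjoin R (s : Set B) ≤
          (Algebra.adjoin R₁ ((s.erase b : Finset B) : Set B)).restrictScalars R := by
        rw [Algebra.adjoin_le_iff]
        intro y hy
        by_cases hyb : y = b
        · have h1 : algebraMap R₁ B t ∈ Algebra.adjoin R₁ ((s.erase b : Finset B) : Set B) :=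
            Subalgebra.algebraMap_mem _ _
          rw [ht] at h1
          rw [hyb]
          exact h1
        · have h1 : y ∈ Algebra.adjoin R₁ ((s.erase b : Finset B) : Set B) :=
            Algebra.subset_adjoin (Finset.mem_coe.mpr (Finset.mem_erase.mpr ⟨hyb, hy⟩))
          exact h1
      exact hle hx
    obtain ⟨A, i1, i2, i3, i4, i5, hflat, hsurj⟩ := IH R₁ B (s.erase b)
      (by rw [Finset.card_erase_of_mem hb]; omega) hadj'
    let k1 : Algebra R A := ((algebraMap R₁ A).comp (algebraMap R R₁)).toAlgebra
    have k2 : IsScalarTower R R₁ A := IsScalarTower.of_algebraMap_eq (fun r => rfl)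
    have k3 : IsScalarTower R A B := IsScalarTower.of_algebraMap_eq (fun r => by
      rw [IsScalarTower.algebraMap_apply R R₁ B, IsScalarTower.algebraMap_apply R₁ A B]
      rfl)
    exact ⟨A, i1, k1, i3, k3, i5, Module.Flat.trans R R₁ A, hsurj⟩

end Vale.Agent.P177
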