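import Vale.Agent.Lib.P177.Core
import Vale.Agent.Lib.P177.FlatCover

/-!
# Final assembly
-/

open CategoryTheory IsLocalRing TensorProduct

namespace Vale.Agent.P177

universe u

/-- Going up: the dimension of the support of a finite algebra is at most its dimension. -/
lemma supportDim_le_ringKrullDim_of_finite (R B : Type u) [CommRing R] [CommRing B] [Algebra R B]
    [Module.Finite R B] : Module.supportDim R B ≤ ringKrullDim B := by
  unfold Module.supportDim Order.krullDim
  apply iSup_le
  intro l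
  let l₁ : LTSeries (PrimeSpectrum R) := l.map Subtype.val (fun _ _ h => h)
  have hmem : l₁.head ∈ Module.support R B := l.head.2
  have hker : RingHom.ker (algebraMap R B) ≤ l₁.head.asIdeal := by
    have h1 := Module.annihilator_le_of_mem_support hmem
    refine le_trans ?_ h1
    intro r hr
    rw [Module.mem_annihilator]
    intro b
    rw [Algebra.smul_def, (RingHom.mem_ker).mp hr, zero_mul]
  obtain ⟨Q, _, hQ, hQc⟩ :=
    Ideal.exists_ideal_over_prime_of_isIntegral (S := B) l₁.head.asIdeal ⊥
      (by rw [← RingHom.ker_eq_comap_bot]; exact hker)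
  have hlo : Q.LiesOver (RelSeries.head l₁).asIdeal := ⟨hQc.symm⟩
  obtain ⟨L, hL, _, _⟩ := Ideal.exists_ltSeries_of_hasGoingUp (S := B) l₁ Q
  have h1 : (l.length : WithBot ℕ∞) = (L.length : WithBot ℕ∞) := by
    rw [hL]
    rfl
  rw [h1]
  exact le_iSup (fun p : LTSeries (PrimeSpectrum B) => (p.length : WithBot ℕ∞)) L

/-- Numerical bookkeeping. -/
lemma exists_nat_dims {x y z w : WithBot ℕ∞} {d : ℕ} (hxy : x + y = d) (hxz : x ≤ z)
    {n : ℕ} (hn : (n : WithBot ℕ∞) + z = w) {a : ℕ} (ha : w = a) :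
    ∃ s : ℕ, y = s ∧ n + d ≤ a + s := by
  have hy1 : y ≠ ⊥ := by
    rintro rfl
    rw [WithBot.add_bot] at hxy
    exact absurd hxy.symm (WithBot.coe_ne_bot)
  have hx1 : x ≠ ⊥ := by
    rintro rfl
    rw [WithBot.bot_add] at hxy
    exact absurd hxy.symm (WithBot.coe_ne_bot)
  obtain ⟨y, rfl⟩ := WithBot.ne_bot_iff_exists.mp hy1
  obtain ⟨x, rfl⟩ := WithBot.ne_bot_iff_exists.mp hx1
  have hxy' : x + y = (d : ℕ∞) := by exact_mod_cast hxy
  have hy2 : y ≠ ⊤ := by
    rintro rfl
    rw [add_top] at hxy'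
    exact absurd hxy'.symm (ENat.natCast_ne_top d)
  have hx2 : x ≠ ⊤ := by
    rintro rfl
    rw [top_add] at hxy'
    exact absurd hxy'.symm (ENat.natCast_ne_top d)
  obtain ⟨s, rfl⟩ := ENat.ne_top_iff_exists.mp hy2
  obtain ⟨t, rfl⟩ := ENat.ne_top_iff_exists.mp hx2
  have hd : t + s = d := by exact_mod_cast hxy'
  refine ⟨s, rfl, ?_⟩
  have h1 : ((n + t : ℕ) : WithBot ℕ∞) ≤ (a : ℕ) := by
    rw [← ha, ← hn]
    push_cast
    gcongr
    exact hxz
  have h2 : n + t ≤ a := by exact_mod_cast h1
  omega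

section FiniteRegular

variable (R : Type u) [CommRing R] [IsRegularLocalRing R] (d : ℕ) (hd : ringKrullDim R = d)
  (B : Type u) [CommRing B] [IsRegularLocalRing B] [Algebra R B] [Module.Finite R B]
  (N : Type u) [AddCommGroup N] [Module R N] [Module.Finite R N]

include hd in
/-- Serre positivity for a module-finite regular local algebra `B` and an arbitrary module `N`. -/
theorem positivity_finite_regular (hlen : Module.length R (B ⊗[R] N) ≠ ⊤)
    (hdim : Module.supportDim R B + Module.supportDim R N = ringKrullDim R) :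
    (∀ i, Module.length R (torModule R i (ModuleCat.of R B) (ModuleCat.of R N)) ≠ ⊤) ∧
      (∀ i, d < i → Subsingleton (torModule R i (ModuleCat.of R B) (ModuleCat.of R N))) ∧
      0 < serreChi R d (ModuleCat.of R B) (ModuleCat.of R N) := by
  obtain ⟨s, hs⟩ : (⊤ : Subalgebra R B).FG := Module.Finite.finiteType B |>.out
  obtain ⟨A, i1, i2, i3, i4, i5, hflat, hsurj⟩ :=
    exists_flat_regular s.card R B s rfl hs
  obtain ⟨zs, h1, h2, h3, h4⟩ := exists_regQuot A B hsurj
  have hzs : ∀ z ∈ zs, z ∈ maximalIdeal A := by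
    intro z hz
    have hk : RingHom.ker (algebraMap A B) ≤ maximalIdeal A :=
      le_maximalIdeal (RingHom.ker_ne_top _)
    exact hk (h2 z hz)
  have hloc : IsLocalHom (algebraMap R A) := by
    constructor
    intro r hr
    have h5 : IsUnit (algebraMap R B r) := by
      rw [IsScalarTower.algebraMap_apply R A B]
      exact hr.map _
    have hmax : ((maximalIdeal B).comap (algebraMap R B)).IsMaximal :=
      Ideal.isMaximal_comap_of_isIntegral_of_isMaximal (maximalIdeal B)
    have h6 : r ∉ maximalIdeal R := by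
      rw [← eq_maximalIdeal hmax, Ideal.mem_comap, mem_maximalIdeal, mem_nonunits_iff, not_not]
      exact h5
    by_contra h7
    exact h6 ((mem_maximalIdeal _).mpr h7)
  obtain ⟨a, ha⟩ : ∃ a : ℕ, ringKrullDim A = a :=
    ⟨_, (IsRegularLocalRing.spanFinrank_maximalIdeal (R := A)).symm⟩
  rw [hd] at hdim
  obtain ⟨t, ht, hle⟩ := exists_nat_dims hdim (supportDim_le_ringKrullDim_of_finite R B) h4 ha
  exact core (R := R) (A := A) (B := B) hsurj zs h1 h3 hzs (ModuleCat.of R N)
    (Module.length_ne_top_iff.mp hlen) d a t hd ha ht hle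

end FiniteRegular

section FlatCI

open RingTheory.Sequence

lemma regQuot_of_isWeaklyRegular {A : Type u} [CommRing A] (rs : List A) :
    ∀ (M : Type u) [AddCommGroup M] [Module A M], IsWeaklyRegular M rs →
      RegQuot rs M (M ⧸ (Ideal.ofList rs • ⊤ : Submodule A M)) := by
  induction rs with
  | nil =>
    intro M _ _ _
    exact ⟨(Submodule.quotEquivOfEqBot _ (by simp)).symm⟩
  | cons r rs IH =>
    intro M _ _ h
    rw [isWeaklyRegular_cons_iff] at h
    obtain ⟨h1, h2⟩ := h
    refine ⟨h1, ?_⟩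
    have e : (M ⧸ LinearMap.range (LinearMap.lsmul A M r)) ≃ₗ[A] QuotSMulTop r M :=
      Submodule.quotEquivOfEq _ _ (by
        ext x
        rw [Submodule.mem_smul_pointwise_iff_exists]
        simp [LinearMap.mem_range])
    have h3 := IH (QuotSMulTop r M) h2
    exact RegQuot.congr_left rs e (RegQuot.congr_right rs
      (Submodule.quotOfListConsSMulTopEquivQuotSMulTopInner M r rs).symm h3)

variable (R : Type u) [CommRing R] [IsRegularLocalRing R] (d : ℕ) (hd : ringKrullDim R = d)
  (A : Type u) [CommRing A] [IsLocalRing A] [IsNoetherianRing A] [Algebra R A]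
  [IsLocalHom (algebraMap R A)] [Module.Flat R A] (rs : List A) (hrs : IsRegular A rs)
  [Module.Finite R (A ⧸ Ideal.ofList rs)]
  (N : Type u) [AddCommGroup N] [Module R N] [Module.Finite R N]

include hd hrs in
/-- Serre positivity for a module-finite quotient of a flat local algebra by a regular sequence,
and an arbitrary module `N`. -/
theorem positivity_flat_ci (hlen : Module.length R ((A ⧸ Ideal.ofList rs) ⊗[R] N) ≠ ⊤)
    (hdim : Module.supportDim R (A ⧸ Ideal.ofList rs) + Module.supportDim R N =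
      ringKrullDim R) :
    (∀ i, Module.length R (torModule R i (ModuleCat.of R (A ⧸ Ideal.ofList rs))
        (ModuleCat.of R N)) ≠ ⊤) ∧
      (∀ i, d < i → Subsingleton (torModule R i (ModuleCat.of R (A ⧸ Ideal.ofList rs))
        (ModuleCat.of R N))) ∧
      0 < serreChi R d (ModuleCat.of R (A ⧸ Ideal.ofList rs)) (ModuleCat.of R N) := by
  have hmem : ∀ z ∈ rs, z ∈ maximalIdeal A := by
    intro z hz
    have hne : Ideal.ofList rs ≠ ⊤ := by
      intro h
      apply hrs.top_ne_smul
      rw [h, Submodule.top_smul]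
    exact le_maximalIdeal hne (Ideal.subset_span hz)
  have hnt : Nontrivial (A ⧸ Ideal.ofList rs) := by
    rw [Ideal.Quotient.nontrivial_iff]
    intro h
    apply hrs.top_ne_smul
    rw [h, Submodule.top_smul]
  have hsurj : Function.Surjective (algebraMap A (A ⧸ Ideal.ofList rs)) :=
    Ideal.Quotient.mk_surjective
  have h1 : RegQuot rs A (A ⧸ Ideal.ofList rs) := by
    refine RegQuot.congr_right rs ?_ (regQuot_of_isWeaklyRegular rs A hrs.toIsWeaklyRegular)
    exact Submodule.quotEquivOfEq _ _ (by simp)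
  have h3 : ∀ q : Ideal A, (∀ z ∈ rs, z ∈ q) →
      RingHom.ker (algebraMap A (A ⧸ Ideal.ofList rs)) ≤ q := by
    intro q hq
    have : RingHom.ker (algebraMap A (A ⧸ Ideal.ofList rs)) = Ideal.ofList rs := Ideal.mk_ker
    rw [this]
    exact Ideal.span_le.mpr hq
  have h4 : (rs.length : WithBot ℕ∞) + ringKrullDim (A ⧸ Ideal.ofList rs) = ringKrullDim A := by
    rw [add_comm]
    exact ringKrullDim_add_length_eq_ringKrullDim_of_isRegular rs hrs
  obtain ⟨a, ha⟩ : ∃ a : ℕ, ringKrullDim A = a := by
    have h5 : ((maximalIdeal A).height : WithBot ℕ∞) = ringKrullDim A :=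
      maximalIdeal_height_eq_ringKrullDim
    obtain ⟨a, ha⟩ := ENat.ne_top_iff_exists.mp
      (Ideal.height_ne_top (I := maximalIdeal A) (maximalIdeal.isMaximal A).ne_top)
    exact ⟨a, by rw [← h5, ← ha]; rfl⟩
  rw [hd] at hdim
  obtain ⟨t, ht, hle⟩ := exists_nat_dims hdim
    (supportDim_le_ringKrullDim_of_finite R (A ⧸ Ideal.ofList rs)) h4 ha
  exact core (R := R) (A := A) (B := A ⧸ Ideal.ofList rs) hsurj rs h1 h3 hmem (ModuleCat.of R N)
    (Module.length_ne_top_iff.mp hlen) d a t hd ha ht hle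

end FlatCI

end Vale.Agent.P177
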