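import Mathlib

/-!
# Northcott's multiplicity symbol

For a list `zs = [z₁, …, zₙ]` of elements of a Noetherian ring `A` and a finitely generated module
`X` such that `X / (zs) X` has finite length, Northcott defines recursively
`e(|X) = length X`, `e(z :: zs | X) = e(zs | X / z X) - e(zs | (0 :_X z))`.
-/

open Module

namespace Vale.Agent.P177

universe u

variable {A : Type u} [CommRing A]

/-- Northcott's multiplicity symbol (recursive definition). -/
noncomputable def nsym : List A → ∀ (X : Type u) [AddCommGroup X] [Module A X], ℤ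
  | [] => fun X _ _ => ((Module.length A X).toNat : ℤ)
  | z :: zs => fun X _ _ =>
      nsym zs (X ⧸ LinearMap.range (LinearMap.lsmul A X z)) -
        nsym zs (LinearMap.ker (LinearMap.lsmul A X z))

lemma nsym_nil (X : Type u) [AddCommGroup X] [Module A X] :
    nsym ([] : List A) X = ((Module.length A X).toNat : ℤ) := rfl

lemma nsym_cons (z : A) (zs : List A) (X : Type u) [AddCommGroup X] [Module A X] :
    nsym (z :: zs) X = nsym zs (X ⧸ LinearMap.range (LinearMap.lsmul A X z)) -
        nsym zs (LinearMap.ker (LinearMap.lsmul A X z)) := rfl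

/-- `X` is finitely generated and every prime containing `ann X` and `zs` is maximal. -/
def Good (zs : List A) (X : Type u) [AddCommGroup X] [Module A X] : Prop :=
  Module.Finite A X ∧ ∀ q : Ideal A, q.IsPrime → Module.annihilator A X ≤ q →
    (∀ z ∈ zs, z ∈ q) → q.IsMaximal

lemma Good.of_surjective {zs : List A} {X Y : Type u} [AddCommGroup X] [Module A X]
    [AddCommGroup Y] [Module A Y] (h : Good zs X) (f : X →ₗ[A] Y) (hf : Function.Surjective f) :
    Good zs Y := by
  obtain ⟨h1, h2⟩ := h
  exact ⟨Module.Finite.of_surjective f hf, fun q hq hle hz =>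
    h2 q hq ((LinearMap.annihilator_le_of_surjective f hf).trans hle) hz⟩

lemma Good.of_injective [IsNoetherianRing A] {zs : List A} {X Y : Type u} [AddCommGroup X]
    [Module A X] [AddCommGroup Y] [Module A Y] (h : Good zs Y) (f : X →ₗ[A] Y)
    (hf : Function.Injective f) : Good zs X := by
  obtain ⟨h1, h2⟩ := h
  exact ⟨Module.Finite.of_injective f hf, fun q hq hle hz =>
    h2 q hq ((LinearMap.annihilator_le_of_injective f hf).trans hle) hz⟩

lemma Good.equiv {zs : List A} {X Y : Type u} [AddCommGroup X] [Module A X]
    [AddCommGroup Y] [Module A Y] (h : Good zs X) (e : X ≃ₗ[A] Y) : Good zs Y :=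
  h.of_surjective e.toLinearMap e.surjective

lemma Good.coker {z : A} {zs : List A} {X : Type u} [AddCommGroup X] [Module A X]
    (h : Good (z :: zs) X) : Good zs (X ⧸ LinearMap.range (LinearMap.lsmul A X z)) := by
  obtain ⟨h1, h2⟩ := h
  refine ⟨inferInstance, fun q hq hle hz => h2 q hq ?_ ?_⟩
  · exact (LinearMap.annihilator_le_of_surjective _ (Submodule.mkQ_surjective _)).trans hle
  · intro y hy
    rcases List.mem_cons.mp hy with rfl | hy
    · apply hle
      rw [Module.mem_annihilator]
      intro m
      induction m using Submodule.Quotient.induction_on with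
      | H x =>
        rw [← Submodule.Quotient.mk_smul, Submodule.Quotient.mk_eq_zero]
        exact ⟨x, rfl⟩
    · exact hz y hy

lemma Good.ker [IsNoetherianRing A] {z : A} {zs : List A} {X : Type u} [AddCommGroup X]
    [Module A X] (h : Good (z :: zs) X) :
    Good zs (LinearMap.ker (LinearMap.lsmul A X z)) := by
  obtain ⟨h1, h2⟩ := h
  refine ⟨inferInstance, fun q hq hle hz => h2 q hq ?_ ?_⟩
  · exact (LinearMap.annihilator_le_of_injective _
      (Submodule.injective_subtype _)).trans hle
  · intro y hy
    rcases List.mem_cons.mp hy with rfl | hy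
    · apply hle
      rw [Module.mem_annihilator]
      rintro ⟨m, hm⟩
      ext
      simpa using hm
    · exact hz y hy

/-- A finitely generated module all of whose support is maximal has finite length. -/
lemma Good.isFiniteLength [IsNoetherianRing A] {X : Type u} [AddCommGroup X] [Module A X]
    (h : Good ([] : List A) X) : IsFiniteLength A X := by
  obtain ⟨h1, h2⟩ := h
  have hdim : Ring.KrullDimLE 0 (A ⧸ Module.annihilator A X) := by
    rw [Ideal.krullDimLE_zero_quotient_iff_forall_minimalPrimes_isMaximal]
    intro J hJ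
    exact h2 J hJ.1.1 hJ.1.2 (by simp)
  have hart : IsArtinianRing (A ⧸ Module.annihilator A X) :=
    isArtinianRing_iff_isNoetherianRing_krullDimLE_zero.mpr ⟨inferInstance, hdim⟩
  let _ := Module.quotientAnnihilator (R := A) (M := X)
  have : IsScalarTower A (A ⧸ Module.annihilator A X) X :=
    (isTorsionBySet_annihilator A X).isScalarTower
  have hfin : Module.Finite (A ⧸ Module.annihilator A X) X :=
    Module.Finite.of_restrictScalars_finite A _ _
  have hA : IsArtinian (A ⧸ Module.annihilator A X) X := inferInstance
  rw [isFiniteLength_iff_isNoetherian_isArtinian]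
  exact ⟨inferInstance, isArtinian_of_surjective_algebraMap
    (R := A ⧸ Module.annihilator A X) Ideal.Quotient.mk_surjective⟩

lemma Good.length_ne_top [IsNoetherianRing A] {X : Type u} [AddCommGroup X] [Module A X]
    (h : Good ([] : List A) X) : Module.length A X ≠ ⊤ := by
  rw [Module.length_ne_top_iff]
  exact h.isFiniteLength

/-- Additivity of the symbol `nsym zs` on short exact sequences of good modules. -/
def Additive' (zs : List A) : Prop :=
  ∀ (X Y Z : Type u) [AddCommGroup X] [Module A X] [AddCommGroup Y] [Module A Y]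
    [AddCommGroup Z] [Module A Z] (f : X →ₗ[A] Y) (g : Y →ₗ[A] Z),
    Function.Injective f → Function.Surjective g → Function.Exact f g → Good zs Y →
    nsym zs Y = nsym zs X + nsym zs Z

lemma exact_subtype_rangeRestrict {X Y Z : Type u} [AddCommGroup X] [Module A X]
    [AddCommGroup Y] [Module A Y] [AddCommGroup Z] [Module A Z] (f : X →ₗ[A] Y) (g : Y →ₗ[A] Z)
    (h : Function.Exact f g) :
    Function.Exact (LinearMap.range f).subtype g.rangeRestrict := by
  intro y
  rw [← Subtype.coe_inj]
  simp only [LinearMap.rangeRestrict, LinearMap.codRestrict_apply, ZeroMemClass.coe_zero,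
    Submodule.coe_subtype, Subtype.range_coe_subtype]
  rw [h y]
  rfl

lemma exact_rangeRestrict {X Y Z : Type u} [AddCommGroup X] [Module A X]
    [AddCommGroup Y] [Module A Y] [AddCommGroup Z] [Module A Z] (f : X →ₗ[A] Y) (g : Y →ₗ[A] Z)
    (h : Function.Exact f g) :
    Function.Exact f g.rangeRestrict := by
  intro y
  rw [← Subtype.coe_inj]
  simp only [LinearMap.rangeRestrict, LinearMap.codRestrict_apply, ZeroMemClass.coe_zero]
  rw [h y]

lemma exact_range_subtype {X Y Z : Type u} [AddCommGroup X] [Module A X]
    [AddCommGroup Y] [Module A Y] [AddCommGroup Z] [Module A Z] (f : X →ₗ[A] Y) (g : Y →ₗ[A] Z)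
    (h : Function.Exact f g) :
    Function.Exact (LinearMap.range f).subtype g := by
  intro y
  simp only [Submodule.coe_subtype, Subtype.range_coe_subtype]
  rw [h y]
  rfl

lemma Additive'.six [IsNoetherianRing A] {zs : List A} (IH : Additive' zs)
    {X₁ X₂ X₃ X₄ X₅ X₆ : Type u}
    [AddCommGroup X₁] [Module A X₁] [AddCommGroup X₂] [Module A X₂] [AddCommGroup X₃] [Module A X₃]
    [AddCommGroup X₄] [Module A X₄] [AddCommGroup X₅] [Module A X₅] [AddCommGroup X₆] [Module A X₆]
    (f₁ : X₁ →ₗ[A] X₂) (f₂ : X₂ →ₗ[A] X₃) (f₃ : X₃ →ₗ[A] X₄) (f₄ : X₄ →ₗ[A] X₅)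
    (f₅ : X₅ →ₗ[A] X₆) (h₁ : Function.Injective f₁) (h₁₂ : Function.Exact f₁ f₂)
    (h₂₃ : Function.Exact f₂ f₃) (h₃₄ : Function.Exact f₃ f₄) (h₄₅ : Function.Exact f₄ f₅)
    (h₅ : Function.Surjective f₅)
    (g₂ : Good zs X₂) (g₃ : Good zs X₃) (g₄ : Good zs X₄) (g₅ : Good zs X₅) :
    nsym zs X₁ - nsym zs X₂ + nsym zs X₃ - nsym zs X₄ + nsym zs X₅ - nsym zs X₆ = 0 := by
  have e₂ := IH X₁ X₂ (LinearMap.range f₂) f₁ f₂.rangeRestrict h₁ f₂.surjective_rangeRestrict
    (exact_rangeRestrict _ _ h₁₂) g₂
  have e₃ := IH (LinearMap.range f₂) X₃ (LinearMap.range f₃) (LinearMap.range f₂).subtype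
    f₃.rangeRestrict (Submodule.injective_subtype _) f₃.surjective_rangeRestrict
    (exact_subtype_rangeRestrict _ _ h₂₃) g₃
  have e₄ := IH (LinearMap.range f₃) X₄ (LinearMap.range f₄) (LinearMap.range f₃).subtype
    f₄.rangeRestrict (Submodule.injective_subtype _) f₄.surjective_rangeRestrict
    (exact_subtype_rangeRestrict _ _ h₃₄) g₄
  have e₅ := IH (LinearMap.range f₄) X₅ X₆ (LinearMap.range f₄).subtype
    f₅ (Submodule.injective_subtype _) h₅
    (exact_range_subtype _ _ h₄₅) g₅
  rw [e₂, e₃, e₄, e₅]
  ring

theorem additive_nsym [IsNoetherianRing A] (zs : List A) : Additive' zs := by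
  induction zs with
  | nil =>
    intro X Y Z _ _ _ _ _ _ f g hf hg hfg hY
    have hX := (hY.of_injective f hf).length_ne_top
    have hZ := (hY.of_surjective g hg).length_ne_top
    simp only [nsym_nil]
    rw [Module.length_eq_add_of_exact f g hf hg hfg, ENat.toNat_add hX hZ]
    push_cast
    ring
  | cons z zs IH =>
    intro X Y Z _ _ _ _ _ _ f g hf hg hfg hY
    have hX := hY.of_injective f hf
    have hZ := hY.of_surjective g hg
    simp only [nsym_cons]
    have c1 : f ∘ₗ LinearMap.lsmul A X z = LinearMap.lsmul A Y z ∘ₗ f := by ext x; simp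
    have c2 : g ∘ₗ LinearMap.lsmul A Y z = LinearMap.lsmul A Z z ∘ₗ g := by ext x; simp
    let F₁ : LinearMap.ker (LinearMap.lsmul A X z) →ₗ[A] LinearMap.ker (LinearMap.lsmul A Y z) :=
      f.restrict (by
        intro x hx
        simp only [LinearMap.mem_ker, LinearMap.lsmul_apply] at hx ⊢
        rw [← map_smul, hx, map_zero])
    let F₂ : LinearMap.ker (LinearMap.lsmul A Y z) →ₗ[A] LinearMap.ker (LinearMap.lsmul A Z z) :=
      g.restrict (by
        intro x hx
        simp only [LinearMap.mem_ker, LinearMap.lsmul_apply] at hx ⊢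
        rw [← map_smul, hx, map_zero])
    let G₁ : (X ⧸ LinearMap.range (LinearMap.lsmul A X z)) →ₗ[A]
        (Y ⧸ LinearMap.range (LinearMap.lsmul A Y z)) :=
      Submodule.mapQ _ _ f (by
        rintro _ ⟨x, rfl⟩
        exact ⟨f x, by simp⟩)
    let G₂ : (Y ⧸ LinearMap.range (LinearMap.lsmul A Y z)) →ₗ[A]
        (Z ⧸ LinearMap.range (LinearMap.lsmul A Z z)) :=
      Submodule.mapQ _ _ g (by
        rintro _ ⟨x, rfl⟩
        exact ⟨g x, by simp⟩)
    let δ := SnakeLemma.δ' (LinearMap.lsmul A X z) (LinearMap.lsmul A Y z)
      (LinearMap.lsmul A Z z) f g hfg f g hfg c1 c2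
      (LinearMap.ker (LinearMap.lsmul A Z z)).subtype (LinearMap.exact_subtype_ker_map _)
      (LinearMap.range (LinearMap.lsmul A X z)).mkQ (LinearMap.exact_map_mkQ_range _) hg hf
    have hF₁ : Function.Injective F₁ := by
      intro x y hxy
      apply Subtype.ext
      apply hf
      exact congrArg Subtype.val hxy
    have hG₂ : Function.Surjective G₂ := by
      intro y
      induction y using Submodule.Quotient.induction_on with
      | H y =>
        obtain ⟨x, rfl⟩ := hg y
        exact ⟨Submodule.Quotient.mk x, by simp [G₂]⟩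
    have h12 : Function.Exact F₁ F₂ := by
      rintro ⟨y, hy⟩
      constructor
      · intro h
        have h' : g y = 0 := congrArg Subtype.val h
        obtain ⟨x, rfl⟩ := (hfg y).mp h'
        refine ⟨⟨x, ?_⟩, rfl⟩
        simp only [LinearMap.mem_ker, LinearMap.lsmul_apply] at hy ⊢
        apply hf
        rw [map_smul, hy, map_zero]
      · rintro ⟨⟨x, hx⟩, h⟩
        apply Subtype.ext
        have h' : f x = y := congrArg Subtype.val h
        change g y = 0
        rw [← h']
        exact (hfg _).mpr ⟨x, rfl⟩
    have h23 : Function.Exact F₂ δ :=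
      SnakeLemma.exact_δ'_right (LinearMap.lsmul A X z) (LinearMap.lsmul A Y z)
        (LinearMap.lsmul A Z z) f g hfg f g hfg c1 c2
        (LinearMap.ker (LinearMap.lsmul A Y z)).subtype (LinearMap.exact_subtype_ker_map _)
        (LinearMap.ker (LinearMap.lsmul A Z z)).subtype (LinearMap.exact_subtype_ker_map _)
        (LinearMap.range (LinearMap.lsmul A X z)).mkQ (LinearMap.exact_map_mkQ_range _) hg hf
        F₂ (by ext x; rfl) (Submodule.injective_subtype _)
    have h34 : Function.Exact δ G₁ :=
      SnakeLemma.exact_δ'_left (LinearMap.lsmul A X z) (LinearMap.lsmul A Y z)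
        (LinearMap.lsmul A Z z) f g hfg f g hfg c1 c2
        (LinearMap.ker (LinearMap.lsmul A Z z)).subtype (LinearMap.exact_subtype_ker_map _)
        (LinearMap.range (LinearMap.lsmul A X z)).mkQ (LinearMap.exact_map_mkQ_range _)
        (LinearMap.range (LinearMap.lsmul A Y z)).mkQ (LinearMap.exact_map_mkQ_range _) hg hf
        G₁ (by ext x; rfl) (Submodule.mkQ_surjective _)
    have h45 : Function.Exact G₁ G₂ := by
      intro y
      induction y using Submodule.Quotient.induction_on with
      | H y =>
        constructor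
        · intro h
          have h' : (Submodule.Quotient.mk (g y) :
              Z ⧸ LinearMap.range (LinearMap.lsmul A Z z)) = 0 := h
          rw [Submodule.Quotient.mk_eq_zero] at h'
          obtain ⟨w, hw⟩ := h'
          obtain ⟨v, rfl⟩ := hg w
          have h'' : g (y - z • v) = 0 := by
            rw [map_sub, map_smul, ← hw]; simp
          obtain ⟨x, hx⟩ := (hfg _).mp h''
          refine ⟨Submodule.Quotient.mk x, ?_⟩
          change Submodule.Quotient.mk (f x) = _
          rw [hx, Submodule.Quotient.eq]
          exact ⟨-v, by simp⟩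
        · rintro ⟨x, hx⟩
          induction x using Submodule.Quotient.induction_on with
          | H x =>
            have hx' : (Submodule.Quotient.mk (f x) :
              Y ⧸ LinearMap.range (LinearMap.lsmul A Y z)) = Submodule.Quotient.mk y := hx
            rw [← hx']
            change (Submodule.Quotient.mk (g (f x)) :
              Z ⧸ LinearMap.range (LinearMap.lsmul A Z z)) = 0
            rw [(hfg _).mpr ⟨x, rfl⟩]
            rfl
    have := IH.six F₁ F₂ δ G₁ G₂ hF₁ h12 h23 h34 h45 hG₂ hY.ker hZ.ker hX.coker hY.coker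
    linarith

lemma nsym_of_subsingleton (zs : List A) :
    ∀ (X : Type u) [AddCommGroup X] [Module A X] [Subsingleton X], nsym zs X = 0 := by
  induction zs with
  | nil =>
    intro X _ _ _
    simp [nsym_nil, Module.length_eq_zero]
  | cons z zs IH =>
    intro X _ _ _
    rw [nsym_cons, IH, IH, sub_zero]

lemma nsym_equiv [IsNoetherianRing A] {zs : List A} {X Y : Type u} [AddCommGroup X] [Module A X]
    [AddCommGroup Y] [Module A Y] (e : X ≃ₗ[A] Y) (hY : Good zs Y) :
    nsym zs X = nsym zs Y := by
  have := additive_nsym zs X Y PUnit.{u + 1} e.toLinearMap 0 e.injective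
    (Function.surjective_to_subsingleton _)
    ((e.toLinearMap.exact_zero_iff_surjective _).2 e.surjective) hY
  rw [nsym_of_subsingleton zs PUnit.{u + 1}, add_zero] at this
  exact this.symm

variable [IsNoetherianRing A] [IsLocalRing A]

open IsLocalRing

/-- Length bound for chains of primes. -/
lemma chain_length_le (zs : List A) : ∀ (J : Ideal A), (∀ z ∈ zs, z ∈ maximalIdeal A) →
    (∀ q : Ideal A, q.IsPrime → J ≤ q → (∀ z ∈ zs, z ∈ q) → q.IsMaximal) →
    ∀ l : LTSeries (PrimeSpectrum A), J ≤ l.head.asIdeal → l.last = closedPoint A →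
      l.length ≤ zs.length := by
  induction zs with
  | nil =>
    intro J _ hJ l hl hlast
    have hmax := hJ l.head.asIdeal l.head.isPrime hl (by simp)
    have hhead : l.head = closedPoint A := PrimeSpectrum.ext (eq_maximalIdeal hmax)
    by_contra hne
    simp only [List.length_nil, nonpos_iff_eq_zero] at hne
    have : l.head < l.last := by
      apply l.strictMono
      rw [Fin.lt_def]
      simp only [Fin.val_zero, Fin.val_last]
      omega
    rw [hhead, hlast] at this
    exact lt_irrefl _ this
  | cons z zs IH =>
    intro J hz hJ l hl hlast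
    have hzm : z ∈ l.last.asIdeal := by
      rw [hlast]
      exact hz z (by simp)
    obtain ⟨l', hz1, hlen, hhead, hlast'⟩ :=
      PrimeSpectrum.exist_ltSeries_mem_one_of_mem_last l hzm
    by_cases h0 : l'.length = 0
    · rw [hlen, h0]; simp
    · have ht := IH (J ⊔ Ideal.span {z}) (fun y hy => hz y (by simp [hy]))
        (fun q hq hle hzs => hJ q hq (le_sup_left.trans hle) (by
          intro y hy
          rcases List.mem_cons.mp hy with rfl | hy
          · exact hle (Ideal.mem_sup_right (Ideal.mem_span_singleton_self _))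
          · exact hzs y hy)) (l'.tail h0) (by
            rw [sup_le_iff]
            constructor
            · have h1 : l'.head ≤ (l'.tail h0).head := by
                rw [RelSeries.head_tail]
                exact l'.strictMono.monotone (Fin.zero_le _)
              rw [hhead] at hl
              exact hl.trans h1
            · rw [Ideal.span_singleton_le_iff_mem, RelSeries.head_tail]
              exact hz1) (by
            rw [RelSeries.last_tail, ← hlast', hlast])
      simp only [RelSeries.tail_length, List.length_cons] at ht ⊢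
      omega

/-- The inductive statement: nonnegativity, and positivity in the presence of a long chain. -/
def PosProp (zs : List A) (X : Type u) [AddCommGroup X] [Module A X] : Prop :=
  Good zs X → 0 ≤ nsym zs X ∧ ∀ l : LTSeries (PrimeSpectrum A),
    Module.annihilator A X ≤ l.head.asIdeal → l.last = closedPoint A →
      zs.length ≤ l.length → 0 < nsym zs X

lemma posProp_nil (X : Type u) [AddCommGroup X] [Module A X] : PosProp ([] : List A) X := by
  intro hX
  refine ⟨by simp [nsym_nil], ?_⟩
  intro l hl _ _
  rw [nsym_nil]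
  have hnt : Nontrivial X := by
    by_contra hcon
    rw [not_nontrivial_iff_subsingleton] at hcon
    have : Module.annihilator A X = ⊤ := by
      rw [Module.annihilator_eq_top_iff]
      exact hcon
    rw [this] at hl
    exact l.head.isPrime.ne_top (top_le_iff.mp hl)
  have h0 : Module.length A X ≠ 0 := (Module.length_pos (R := A) (M := X)).ne'
  have h1 := hX.length_ne_top
  have : (Module.length A X).toNat ≠ 0 := by
    rw [Ne, ENat.toNat_eq_zero]
    push Not
    exact ⟨h0, h1⟩
  omega

lemma posProp_cons {z : A} {zs : List A} (hz : z ∈ maximalIdeal A)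
    (hzs : ∀ y ∈ zs, y ∈ maximalIdeal A)
    (IH : ∀ (X : Type u) [AddCommGroup X] [Module A X], PosProp zs X)
    (X : Type u) [AddCommGroup X] [Module A X] : PosProp (z :: zs) X := by
  intro hX
  have hfin := hX.1
  revert hX
  suffices H : PosProp (z :: zs) X from H
  induction hfin using IsNoetherianRing.induction_on_isQuotientEquivQuotientPrime A with
  | subsingleton N =>
    intro hN
    refine ⟨by rw [nsym_of_subsingleton], ?_⟩
    intro l hl _ _
    exfalso
    have : Module.annihilator A N = ⊤ := by
      rw [Module.annihilator_eq_top_iff]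
      infer_instance
    rw [this] at hl
    exact l.head.isPrime.ne_top (top_le_iff.mp hl)
  | quotient N p e =>
    intro hN
    have hG : Good (z :: zs) (A ⧸ p.asIdeal) := hN.equiv e
    have hann : Module.annihilator A N = p.asIdeal := by
      rw [e.annihilator_eq, Ideal.annihilator_quotient]
    rw [hann, nsym_equiv e hG, nsym_cons]
    by_cases hzp : z ∈ p.asIdeal
    · -- both terms agree
      have hzero : LinearMap.lsmul A (A ⧸ p.asIdeal) z = 0 := by
        ext
        simp only [LinearMap.lsmul_apply, LinearMap.zero_apply, LinearMap.comp_apply]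
        rw [Submodule.mkQ_apply, ← Submodule.Quotient.mk_smul, Submodule.Quotient.mk_eq_zero]
        exact p.asIdeal.mul_mem_right _ hzp
      have e1 : ((A ⧸ p.asIdeal) ⧸ LinearMap.range (LinearMap.lsmul A (A ⧸ p.asIdeal) z)) ≃ₗ[A]
          (A ⧸ p.asIdeal) :=
        Submodule.quotEquivOfEqBot _ (by rw [hzero, LinearMap.range_zero])
      have e2 : (LinearMap.ker (LinearMap.lsmul A (A ⧸ p.asIdeal) z)) ≃ₗ[A] (A ⧸ p.asIdeal) :=
        LinearEquiv.ofTop _ (by rw [hzero, LinearMap.ker_zero])
      have hG' : Good zs (A ⧸ p.asIdeal) := hG.coker.equiv e1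
      rw [nsym_equiv e1 hG', nsym_equiv e2 hG', sub_self]
      refine ⟨le_rfl, ?_⟩
      intro l hl hlast hlen
      exfalso
      have := chain_length_le zs p.asIdeal hzs (by
        intro q hq hle hzq
        refine hG'.2 q hq ?_ hzq
        rwa [Ideal.annihilator_quotient]) l hl hlast
      simp only [List.length_cons] at hlen
      omega
    · have hker : Subsingleton (LinearMap.ker (LinearMap.lsmul A (A ⧸ p.asIdeal) z)) := by
        constructor
        rintro ⟨x, hx⟩ ⟨y, hy⟩
        have key : ∀ w : A ⧸ p.asIdeal, w ∈ LinearMap.ker (LinearMap.lsmul A (A ⧸ p.asIdeal) z) →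
            w = 0 := by
          intro w hw
          obtain ⟨w, rfl⟩ := Ideal.Quotient.mk_surjective w
          have hw' : (Ideal.Quotient.mk p.asIdeal) (z * w) = 0 := by
            simpa [Algebra.smul_def] using hw
          rw [Ideal.Quotient.eq_zero_iff_mem] at hw' ⊢
          exact (p.isPrime.mem_or_mem hw').resolve_left hzp
        exact Subtype.ext ((key x hx).trans (key y hy).symm)
      rw [nsym_of_subsingleton zs (LinearMap.ker (LinearMap.lsmul A (A ⧸ p.asIdeal) z)), sub_zero]
      obtain ⟨h1, h2⟩ := IH _ hG.coker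
      refine ⟨h1, ?_⟩
      intro l hl hlast hlen
      have hzm : z ∈ l.last.asIdeal := by
        rw [hlast]
        exact hz
      obtain ⟨l', hz1, hlen', hhead, hlast'⟩ :=
        PrimeSpectrum.exist_ltSeries_mem_one_of_mem_last l hzm
      simp only [List.length_cons] at hlen
      have h0 : l'.length ≠ 0 := by omega
      have hpz : p.asIdeal ≤ (l'.tail h0).head.asIdeal := by
        have h1 : l'.head ≤ (l'.tail h0).head := by
          rw [RelSeries.head_tail]
          exact l'.strictMono.monotone (Fin.zero_le _)
        rw [hhead] at hl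
        exact hl.trans h1
      have hz1' : z ∈ (l'.tail h0).head.asIdeal := by
        rw [RelSeries.head_tail]
        exact hz1
      refine h2 (l'.tail h0) ?_ (by rw [RelSeries.last_tail, ← hlast', hlast]) (by
        simp only [RelSeries.tail_length]; omega)
      intro a ha
      rw [Module.mem_annihilator] at ha
      have := ha (Submodule.Quotient.mk (Ideal.Quotient.mk p.asIdeal 1))
      rw [← Submodule.Quotient.mk_smul, Submodule.Quotient.mk_eq_zero] at this
      obtain ⟨b, hb⟩ := this
      obtain ⟨b, rfl⟩ := Ideal.Quotient.mk_surjective b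
      have hb' : (Ideal.Quotient.mk p.asIdeal) (z * b) = (Ideal.Quotient.mk p.asIdeal) a := by
        simpa [Algebra.smul_def] using hb
      rw [Ideal.Quotient.eq] at hb'
      have h3 := hpz hb'
      have h4 : z * b ∈ (l'.tail h0).head.asIdeal := Ideal.mul_mem_right _ _ hz1'
      have h5 := Ideal.sub_mem _ h4 h3
      simpa using h5
  | exact N₁ N₂ N₃ f g hf hg hfg h₁ h₃ =>
    intro hN
    have g₁ := hN.of_injective f hf
    have g₃ := hN.of_surjective g hg
    obtain ⟨a₁, b₁⟩ := h₁ g₁
    obtain ⟨a₃, b₃⟩ := h₃ g₃
    rw [additive_nsym (z :: zs) N₁ N₂ N₃ f g hf hg hfg hN]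
    refine ⟨by linarith, ?_⟩
    intro l hl hlast hlen
    have hmul : Module.annihilator A N₁ * Module.annihilator A N₃ ≤ l.head.asIdeal := by
      refine le_trans ?_ hl
      rw [Ideal.mul_le]
      intro r hr s hs
      rw [Module.mem_annihilator] at hr hs ⊢
      intro m
      have h1 : g (s • m) = 0 := by rw [map_smul, hs]
      obtain ⟨n, hn⟩ := (hfg _).mp h1
      rw [mul_smul, ← hn, ← map_smul, hr, map_zero]
    rcases (Ideal.IsPrime.mul_le l.head.isPrime).mp hmul with h | h
    · have := b₁ l h hlast hlen
      linarith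
    · have := b₃ l h hlast hlen
      linarith

/-- **Positivity of the multiplicity symbol.** -/
theorem posProp (zs : List A) (hzs : ∀ y ∈ zs, y ∈ maximalIdeal A) :
    ∀ (X : Type u) [AddCommGroup X] [Module A X], PosProp zs X := by
  induction zs with
  | nil =>
    intro X _ _
    exact posProp_nil X
  | cons z zs IH =>
    intro X _ _
    exact posProp_cons (hzs z (by simp)) (fun y hy => hzs y (by simp [hy]))
      (IH (fun y hy => hzs y (by simp [hy]))) X

end Vale.Agent.P177
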