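import Mathlib

/-!
# Basic facts on regular local rings
-/

open IsLocalRing

namespace Vale.Agent.P177

universe u

section Quot

variable {A : Type u} [CommRing A] [IsLocalRing A] [IsNoetherianRing A]

lemma spanFinrank_map_succ_le {x : A} (hx : x ∈ maximalIdeal A) (hx2 : x ∉ maximalIdeal A ^ 2) :
    ((maximalIdeal A).map (Ideal.Quotient.mk (Ideal.span {x}))).spanFinrank + 1 ≤
      (maximalIdeal A).spanFinrank := by
  classical
  obtain ⟨s, hs, hspan⟩ :=
    Submodule.FG.exists_span_finset_card_eq_spanFinrank (maximalIdeal A).fg_of_isNoetherianRing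
  have hxs : x ∈ Submodule.span A (s : Set A) := by rw [hspan]; exact hx
  obtain ⟨f, hf, hfx⟩ := Submodule.mem_span_finset.mp hxs
  have hsm : ∀ a ∈ s, a ∈ maximalIdeal A := by
    intro a ha
    rw [← hspan]
    exact Submodule.subset_span ha
  have hex : ∃ a ∈ s, f a ∉ maximalIdeal A := by
    by_contra hcon
    push Not at hcon
    apply hx2
    rw [← hfx, pow_two]
    refine Ideal.sum_mem _ (fun a ha => ?_)
    exact Ideal.mul_mem_mul (hcon a ha) (hsm a ha)
  obtain ⟨a, ha, hfa⟩ := hex
  have hunit : IsUnit (f a) := by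
    by_contra h
    exact hfa ((mem_maximalIdeal _).mpr h)
  obtain ⟨v, hv⟩ := hunit.exists_left_inv
  let π := Ideal.Quotient.mk (Ideal.span {x})
  have hmem : π a ∈ Ideal.span (π '' ((s.erase a : Finset A) : Set A)) := by
    have h1 : f a * a + ∑ b ∈ s.erase a, f b * b = x := by
      rw [← hfx, ← Finset.add_sum_erase s _ ha]
      rfl
    have h2 : a = v * x - v * ∑ b ∈ s.erase a, f b * b := by
      rw [← h1]
      linear_combination (-a) * hv
    have h3 : π x = 0 := Ideal.Quotient.eq_zero_iff_mem.mpr (Ideal.mem_span_singleton_self x)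
    have h4 : π a = - (π v * ∑ b ∈ s.erase a, π (f b) * π b) := by
      conv_lhs => rw [h2]
      rw [map_sub, map_mul, h3, mul_zero, map_mul, map_sum]
      simp
    rw [h4]
    apply Ideal.neg_mem_iff _ |>.mpr
    apply Ideal.mul_mem_left
    refine Ideal.sum_mem _ (fun b hb => ?_)
    apply Ideal.mul_mem_left
    exact Ideal.subset_span ⟨b, hb, rfl⟩
  have hmap : (maximalIdeal A).map π = Ideal.span (π '' ((s.erase a : Finset A) : Set A)) := by
    apply le_antisymm
    · have : maximalIdeal A = Ideal.span (s : Set A) := hspan.symm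
      rw [this, Ideal.map_span, Ideal.span_le]
      rintro _ ⟨b, hb, rfl⟩
      by_cases hba : b = a
      · rw [hba]; exact hmem
      · exact Ideal.subset_span ⟨b, Finset.mem_coe.mpr (Finset.mem_erase.mpr ⟨hba, hb⟩), rfl⟩
    · rw [Ideal.span_le]
      rintro _ ⟨b, hb, rfl⟩
      exact Ideal.mem_map_of_mem _ (hsm b (Finset.mem_of_mem_erase (Finset.mem_coe.mp hb)))
  have hle : ((maximalIdeal A).map π).spanFinrank ≤ (s.erase a).card := by
    rw [hmap]
    have hfin : (π '' ((s.erase a : Finset A) : Set A)).Finite :=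
      (Finset.finite_toSet _).image _
    refine (Submodule.spanFinrank_span_le_ncard_of_finite hfin).trans ?_
    refine (Set.ncard_image_le (Finset.finite_toSet _)).trans ?_
    rw [Set.ncard_coe_finset]
  rw [Finset.card_erase_of_mem ha] at hle
  have hpos : 0 < s.card := Finset.card_pos.mpr ⟨a, ha⟩
  change ((maximalIdeal A).map π).spanFinrank + 1 ≤ _
  omega

end Quot

/-- The quotient of a regular local ring by an element outside `m²`. -/
theorem regular_quotient {A : Type u} [CommRing A] [IsRegularLocalRing A] {x : A}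
    (hx : x ∈ maximalIdeal A) (hx2 : x ∉ maximalIdeal A ^ 2) :
    IsRegularLocalRing (A ⧸ Ideal.span {x}) ∧
      ringKrullDim (A ⧸ Ideal.span {x}) + 1 = ringKrullDim A := by
  have hne : Ideal.span {x} ≠ ⊤ := by
    intro h
    have := (Ideal.span_singleton_le_iff_mem _).mpr hx
    rw [h] at this
    exact (maximalIdeal.isMaximal A).ne_top (top_le_iff.mp this)
  have : Nontrivial (A ⧸ Ideal.span {x}) := Ideal.Quotient.nontrivial_iff.mpr hne
  have hloc : IsLocalRing (A ⧸ Ideal.span {x}) :=
    IsLocalRing.of_surjective' _ Ideal.Quotient.mk_surjective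
  have hmax : (maximalIdeal A).map (Ideal.Quotient.mk (Ideal.span {x})) =
      maximalIdeal (A ⧸ Ideal.span {x}) :=
    IsLocalRing.map_maximalIdeal_of_surjective _ Ideal.Quotient.mk_surjective
  have h1 := spanFinrank_map_succ_le hx hx2
  rw [hmax] at h1
  have hreg := IsRegularLocalRing.spanFinrank_maximalIdeal (R := A)
  have h2 : ringKrullDim A ≤ ringKrullDim (A ⧸ Ideal.span {x}) + 1 := by
    have := ringKrullDim_le_ringKrullDim_quotient_add_encard (R := A) {x} (by
      rw [Set.singleton_subset_iff]
      rw [IsLocalRing.ringJacobson_eq_maximalIdeal]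
      exact hx)
    simpa using this
  have h3 : ringKrullDim (A ⧸ Ideal.span {x}) ≤ (maximalIdeal (A ⧸ Ideal.span {x})).spanFinrank :=
    ringKrullDim_le_spanFinrank_maximalIdeal _
  have h4 : (((maximalIdeal (A ⧸ Ideal.span {x})).spanFinrank + 1 : ℕ) : WithBot ℕ∞) ≤
      ((maximalIdeal A).spanFinrank : ℕ) := by exact_mod_cast h1
  have h5 : (((maximalIdeal (A ⧸ Ideal.span {x})).spanFinrank + 1 : ℕ) : WithBot ℕ∞) ≤
      ringKrullDim (A ⧸ Ideal.span {x}) + 1 := by
    rw [hreg] at h4
    exact h4.trans h2
  have h6 : ((maximalIdeal (A ⧸ Ideal.span {x})).spanFinrank : WithBot ℕ∞) ≤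
      ringKrullDim (A ⧸ Ideal.span {x}) := by
    push_cast at h5
    exact ENat.WithBot.add_le_add_one_right_iff.mp h5
  refine ⟨IsRegularLocalRing.of_spanFinrank_maximalIdeal_le _ h6, ?_⟩
  apply le_antisymm _ h2
  calc ringKrullDim (A ⧸ Ideal.span {x}) + 1 ≤
      (maximalIdeal (A ⧸ Ideal.span {x})).spanFinrank + 1 := by gcongr
    _ ≤ ringKrullDim A := by
      rw [hreg] at h4
      exact_mod_cast h4

/-- A regular local ring is a domain. -/
theorem isDomain_of_regular (n : ℕ) : ∀ (A : Type u) [CommRing A] [IsRegularLocalRing A],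
    (maximalIdeal A).spanFinrank = n → IsDomain A := by
  induction n with
  | zero =>
    intro A _ _ h
    have hm : maximalIdeal A = ⊥ :=
      (Submodule.spanFinrank_eq_zero_iff_eq_bot (maximalIdeal A).fg_of_isNoetherianRing).mp h
    have hf : IsField A := IsLocalRing.isField_iff_maximalIdeal_eq.mpr hm
    exact hf.isDomain
  | succ n IH =>
    intro A _ _ h
    have hreg := IsRegularLocalRing.spanFinrank_maximalIdeal (R := A)
    have hht : ((maximalIdeal A).height : WithBot ℕ∞) = ringKrullDim A :=
      maximalIdeal_height_eq_ringKrullDim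
    have hmin : maximalIdeal A ∉ minimalPrimes A := by
      intro hmem
      have h0 : (maximalIdeal A).height = 0 := Ideal.height_eq_zero_iff.mpr hmem
      rw [h0, ← hreg, h] at hht
      norm_cast at hht
    -- prime avoidance
    have hx : ∃ x ∈ maximalIdeal A, x ∉ maximalIdeal A ^ 2 ∧ ∀ p ∈ minimalPrimes A, x ∉ p := by
      by_contra hcon
      push Not at hcon
      have hfin : (insert (maximalIdeal A ^ 2) (minimalPrimes A)).Finite :=
        (minimalPrimes.finite_of_isNoetherianRing A).insert _
      have hsub : ((maximalIdeal A : Ideal A) : Set A) ⊆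
          ⋃ i ∈ (insert (maximalIdeal A ^ 2) (minimalPrimes A)), ((id i : Ideal A) : Set A) := by
        intro x hx
        by_cases h2 : x ∈ maximalIdeal A ^ 2
        · exact Set.mem_biUnion (Set.mem_insert _ _) h2
        · obtain ⟨p, hp, hxp⟩ := hcon x hx h2
          exact Set.mem_biUnion (Set.mem_insert_of_mem _ hp) hxp
      obtain ⟨p, hp, hle⟩ := (Ideal.subset_union_prime_finite hfin (maximalIdeal A ^ 2)
        (maximalIdeal A ^ 2) (by
          intro i hi hne _
          rcases hi with hi | hi
          · exact absurd hi hne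
          · exact hi.1.1)).mp hsub
      simp only [id] at hle
      rcases hp with hp | hp
      · rw [hp, pow_two] at hle
        have hbot : maximalIdeal A = ⊥ :=
          Submodule.eq_bot_of_le_smul_of_le_jacobson_bot (maximalIdeal A) (maximalIdeal A)
            (maximalIdeal A).fg_of_isNoetherianRing (by simpa using hle)
            (IsLocalRing.maximalIdeal_le_jacobson _)
        rw [hbot, Submodule.spanFinrank_bot] at h
        omega
      · have : p = maximalIdeal A := le_antisymm (le_maximalIdeal hp.1.1.ne_top) hle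
        rw [this] at hp
        exact hmin hp
    obtain ⟨x, hx1, hx2, hx3⟩ := hx
    obtain ⟨hregq, hdimq⟩ := regular_quotient hx1 hx2
    have hdom : IsDomain (A ⧸ Ideal.span {x}) := by
      apply IH
      have h1 := IsRegularLocalRing.spanFinrank_maximalIdeal (R := A ⧸ Ideal.span {x})
      rw [← h1, ← hreg, h] at hdimq
      norm_cast at hdimq
      omega
    have hprime : (Ideal.span {x}).IsPrime := (Ideal.Quotient.isDomain_iff_prime _).mp hdom
    obtain ⟨p, hp, hple⟩ := Ideal.exists_minimalPrimes_le (I := ⊥) (J := Ideal.span {x}) bot_le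
    have hxp : x ∉ p := hx3 p hp
    have hpp : p.IsPrime := hp.1.1
    have hpbot : p = ⊥ := by
      apply Submodule.eq_bot_of_le_smul_of_le_jacobson_bot (maximalIdeal A) p
        p.fg_of_isNoetherianRing ?_ (IsLocalRing.maximalIdeal_le_jacobson _)
      intro y hy
      obtain ⟨r, rfl⟩ := Ideal.mem_span_singleton'.mp (hple hy)
      have hr : r ∈ p := (hpp.mem_or_mem hy).resolve_right hxp
      rw [mul_comm]
      exact Submodule.smul_mem_smul hx1 hr
    have : (⊥ : Ideal A).IsPrime := by rw [← hpbot]; exact hpp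
    exact IsDomain.of_bot_isPrime A

theorem isDomain_of_isRegularLocalRing (A : Type u) [CommRing A] [IsRegularLocalRing A] :
    IsDomain A :=
  isDomain_of_regular _ A rfl

end Vale.Agent.P177
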