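import Vale.Agent.Lib.P177.Chain
import Vale.Agent.Lib.P177.RegLocal

/-!
# Regular quotients of regular local rings
-/

open IsLocalRing

namespace Vale.Agent.P177

universe u

lemma RegQuot.congr_left {A : Type u} [CommRing A] (zs : List A) :
    ∀ {X X' Y : Type u} [AddCommGroup X] [Module A X] [AddCommGroup X'] [Module A X']
      [AddCommGroup Y] [Module A Y] (_ : X ≃ₗ[A] X'), RegQuot zs X' Y → RegQuot zs X Y := by
  induction zs with
  | nil =>
    rintro X X' Y _ _ _ _ _ _ e ⟨e'⟩
    exact ⟨e.trans e'⟩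
  | cons z zs IH =>
    rintro X X' Y _ _ _ _ _ _ e ⟨hz, h⟩
    have hcomm : ∀ x, e (z • x) = z • e x := fun x => map_smul e z x
    refine ⟨?_, ?_⟩
    · intro x y hxy
      apply e.injective
      apply hz
      simp only [LinearMap.lsmul_apply] at hxy ⊢
      rw [← hcomm, ← hcomm, hxy]
    · refine IH (Submodule.Quotient.equiv _ _ e ?_) h
      ext y
      constructor
      · rintro ⟨_, ⟨x, rfl⟩, rfl⟩
        exact ⟨e x, by simp⟩
      · rintro ⟨x, rfl⟩
        exact ⟨z • e.symm x, ⟨e.symm x, rfl⟩, by simp⟩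

lemma RegQuot.congr_right {A : Type u} [CommRing A] (zs : List A) :
    ∀ {X Y Y' : Type u} [AddCommGroup X] [Module A X] [AddCommGroup Y] [Module A Y]
      [AddCommGroup Y'] [Module A Y'] (_ : Y ≃ₗ[A] Y'), RegQuot zs X Y → RegQuot zs X Y' := by
  induction zs with
  | nil =>
    rintro X Y Y' _ _ _ _ _ _ e ⟨e'⟩
    exact ⟨e'.trans e⟩
  | cons z zs IH =>
    rintro X Y Y' _ _ _ _ _ _ e ⟨hz, h⟩
    exact ⟨hz, IH e h⟩

/-- A chain of prime ideals obtained by adding one generator at a time. -/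
def PrimeChain {A : Type u} [CommRing A] : Ideal A → List A → Ideal A → Prop
  | I, [], K => I = K
  | I, z :: zs, K => I.IsPrime ∧ z ∉ I ∧ PrimeChain (I ⊔ Ideal.span {z}) zs K

lemma PrimeChain.regQuot {A : Type u} [CommRing A] (zs : List A) :
    ∀ (I K : Ideal A), PrimeChain I zs K → RegQuot zs (A ⧸ I) (A ⧸ K) := by
  induction zs with
  | nil =>
    rintro I K h
    exact ⟨Submodule.quotEquivOfEq _ _ h⟩
  | cons z zs IH =>
    rintro I K ⟨hI, hz, h⟩
    refine ⟨?_, ?_⟩
    · rw [← LinearMap.ker_eq_bot, LinearMap.ker_eq_bot']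
      intro w hw
      obtain ⟨w, rfl⟩ := Ideal.Quotient.mk_surjective w
      have hw' : (Ideal.Quotient.mk I) (z * w) = 0 := by
        simpa [Algebra.smul_def] using hw
      rw [Ideal.Quotient.eq_zero_iff_mem] at hw' ⊢
      exact (hI.mem_or_mem hw').resolve_left hz
    · have hr : LinearMap.range (LinearMap.lsmul A (A ⧸ I) z) =
          Submodule.map (Submodule.mkQ I) (Ideal.span {z}) := by
        ext y
        constructor
        · rintro ⟨x, rfl⟩
          obtain ⟨x, rfl⟩ := Ideal.Quotient.mk_surjective x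
          refine ⟨z * x, Ideal.mul_mem_right _ _ (Ideal.mem_span_singleton_self z), ?_⟩
          simp [Algebra.smul_def]
        · rintro ⟨x, hx, rfl⟩
          obtain ⟨c, rfl⟩ := Ideal.mem_span_singleton'.mp hx
          refine ⟨Ideal.Quotient.mk I c, ?_⟩
          simp [Algebra.smul_def, mul_comm]
      let e : ((A ⧸ I) ⧸ LinearMap.range (LinearMap.lsmul A (A ⧸ I) z)) ≃ₗ[A]
          (A ⧸ (I ⊔ Ideal.span {z})) :=
        (Submodule.quotEquivOfEq _ _ hr).trans
          (Submodule.quotientQuotientEquivQuotientSup I (Ideal.span {z}))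
      exact RegQuot.congr_left zs e (IH _ _ h)

lemma spanFinrank_le_of_le_sq {A : Type u} [CommRing A] [IsLocalRing A] [IsNoetherianRing A]
    {K : Ideal A} (hK : K ≤ maximalIdeal A ^ 2) :
    (maximalIdeal A).spanFinrank ≤
      ((maximalIdeal A).map (Ideal.Quotient.mk K)).spanFinrank := by
  classical
  obtain ⟨t, ht, hspan⟩ := Submodule.FG.exists_span_finset_card_eq_spanFinrank
    ((maximalIdeal A).fg_of_isNoetherianRing.map (Ideal.Quotient.mk K))
  let σ : A ⧸ K → A := Function.surjInv Ideal.Quotient.mk_surjective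
  have hσ : ∀ y, Ideal.Quotient.mk K (σ y) = y :=
    Function.surjInv_eq Ideal.Quotient.mk_surjective
  have hKm : K ≤ maximalIdeal A := hK.trans (Ideal.pow_le_self (by norm_num))
  let t' : Finset A := t.image σ
  have hcomap : ∀ y, Ideal.Quotient.mk K y ∈ (maximalIdeal A).map (Ideal.Quotient.mk K) →
      y ∈ maximalIdeal A := by
    intro y hy
    obtain ⟨x, hx, hxy⟩ := (Ideal.mem_map_iff_of_surjective _ Ideal.Quotient.mk_surjective).mp hy
    rw [Ideal.Quotient.eq] at hxy
    have := Ideal.sub_mem _ hx (hKm hxy)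
    simpa using this
  have ht'm : ∀ a ∈ t', a ∈ maximalIdeal A := by
    intro a ha
    obtain ⟨y, hy, rfl⟩ := Finset.mem_image.mp ha
    apply hcomap
    rw [hσ, ← hspan]
    exact Submodule.subset_span hy
  have hle : maximalIdeal A ≤ Ideal.span (t' : Set A) ⊔ maximalIdeal A • maximalIdeal A := by
    intro x hx
    have h1 : Ideal.Quotient.mk K x ∈ Ideal.span (t : Set (A ⧸ K)) := by
      have : Ideal.Quotient.mk K x ∈ (maximalIdeal A).map (Ideal.Quotient.mk K) :=
        Ideal.mem_map_of_mem _ hx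
      rw [← hspan] at this
      exact this
    have h2 : Ideal.span (t : Set (A ⧸ K)) =
        (Ideal.span (t' : Set A)).map (Ideal.Quotient.mk K) := by
      rw [Ideal.map_span]
      congr 1
      ext y
      constructor
      · intro hy
        exact ⟨σ y, Finset.mem_coe.mpr (Finset.mem_image_of_mem σ hy), hσ y⟩
      · rintro ⟨a, ha, rfl⟩
        obtain ⟨y, hy, rfl⟩ := Finset.mem_image.mp (Finset.mem_coe.mp ha)
        rw [hσ]
        exact hy
    rw [h2] at h1
    obtain ⟨w, hw, hwx⟩ := (Ideal.mem_map_iff_of_surjective _ Ideal.Quotient.mk_surjective).mp h1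
    rw [Ideal.Quotient.eq] at hwx
    have h3 : w - x ∈ maximalIdeal A • maximalIdeal A := by
      have := hK hwx
      rwa [pow_two] at this
    have h4 : x = w + -(w - x) := by ring
    rw [h4]
    exact Submodule.add_mem_sup hw (Submodule.neg_mem _ h3)
  have hle2 : maximalIdeal A ≤ Ideal.span (t' : Set A) :=
    Submodule.le_of_le_smul_of_le_jacobson_bot (maximalIdeal A).fg_of_isNoetherianRing
      (IsLocalRing.maximalIdeal_le_jacobson _) hle
  have heq : maximalIdeal A = Ideal.span (t' : Set A) :=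
    le_antisymm hle2 (Ideal.span_le.mpr (fun a ha => ht'm a (Finset.mem_coe.mp ha)))
  rw [← ht]
  calc (maximalIdeal A).spanFinrank = (Ideal.span (t' : Set A)).spanFinrank := by rw [← heq]
    _ ≤ (t' : Set A).ncard := Submodule.spanFinrank_span_le_ncard_of_finite t'.finite_toSet
    _ = t'.card := Set.ncard_coe_finset t'
    _ ≤ t.card := Finset.card_image_le

theorem exists_primeChain (n : ℕ) : ∀ (A : Type u) [CommRing A] (I K : Ideal A) (_ : I ≤ K)
    (_ : IsRegularLocalRing (A ⧸ I)) (_ : IsRegularLocalRing (A ⧸ K)),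
    (maximalIdeal (A ⧸ I)).spanFinrank = n →
    ∃ zs : List A, PrimeChain I zs K ∧ (∀ z ∈ zs, z ∈ K) ∧
      (zs.length : WithBot ℕ∞) + ringKrullDim (A ⧸ K) = ringKrullDim (A ⧸ I) := by
  induction n with
  | zero =>
    intro A _ I K hIK hI hK hn
    have hm : maximalIdeal (A ⧸ I) = ⊥ :=
      (Submodule.spanFinrank_eq_zero_iff_eq_bot
        (maximalIdeal (A ⧸ I)).fg_of_isNoetherianRing).mp hn
    have hf : IsField (A ⧸ I) := IsLocalRing.isField_iff_maximalIdeal_eq.mpr hm
    have hImax : I.IsMaximal := Ideal.Quotient.maximal_of_isField I hf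
    have hKtop : K ≠ ⊤ := Ideal.Quotient.nontrivial_iff.mp inferInstance
    have hEq : I = K := hImax.eq_of_le hKtop hIK
    subst hEq
    exact ⟨[], rfl, by simp, by simp⟩
  | succ n IH =>
    intro A _ I K hIK hI hK hn
    by_cases hEq : I = K
    · subst hEq
      exact ⟨[], rfl, by simp, by simp⟩
    have hdom : IsDomain (A ⧸ I) := isDomain_of_isRegularLocalRing _
    have hIprime : I.IsPrime := (Ideal.Quotient.isDomain_iff_prime I).mp hdom
    have hKtop : K ≠ ⊤ := Ideal.Quotient.nontrivial_iff.mp inferInstance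
    have hlt : I < K := lt_of_le_of_ne hIK hEq
    obtain ⟨w, hwK, hwI⟩ := SetLike.exists_of_lt hlt
    have e : ((A ⧸ I) ⧸ K.map (Ideal.Quotient.mk I)) ≃+* (A ⧸ K) :=
      DoubleQuot.quotQuotEquivQuotOfLE hIK
    have hregK : IsRegularLocalRing ((A ⧸ I) ⧸ K.map (Ideal.Quotient.mk I)) :=
      IsRegularLocalRing.of_ringEquiv e.symm
    have hmapmax : (maximalIdeal (A ⧸ I)).map
        (Ideal.Quotient.mk (K.map (Ideal.Quotient.mk I))) =
        maximalIdeal ((A ⧸ I) ⧸ K.map (Ideal.Quotient.mk I)) :=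
      IsLocalRing.map_maximalIdeal_of_surjective _ Ideal.Quotient.mk_surjective
    have hregI := IsRegularLocalRing.spanFinrank_maximalIdeal (R := A ⧸ I)
    have hregK' := IsRegularLocalRing.spanFinrank_maximalIdeal
      (R := (A ⧸ I) ⧸ K.map (Ideal.Quotient.mk I))
    have hnle : ¬ K.map (Ideal.Quotient.mk I) ≤ maximalIdeal (A ⧸ I) ^ 2 := by
      intro hle
      have h1 := spanFinrank_le_of_le_sq hle
      rw [hmapmax] at h1
      have h3 : ringKrullDim ((A ⧸ I) ⧸ Ideal.span {Ideal.Quotient.mk I w}) + 1 ≤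
          ringKrullDim (A ⧸ I) := by
        apply ringKrullDim_quotient_succ_le_of_nonZeroDivisor
        rw [mem_nonZeroDivisors_iff_ne_zero]
        intro h0
        exact hwI (Ideal.Quotient.eq_zero_iff_mem.mp h0)
      have h4 : ringKrullDim ((A ⧸ I) ⧸ K.map (Ideal.Quotient.mk I)) ≤
          ringKrullDim ((A ⧸ I) ⧸ Ideal.span {Ideal.Quotient.mk I w}) := by
        have hle' : Ideal.span {Ideal.Quotient.mk I w} ≤ K.map (Ideal.Quotient.mk I) :=
          (Ideal.span_singleton_le_iff_mem _).mpr (Ideal.mem_map_of_mem _ hwK)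
        exact ringKrullDim_le_of_surjective (Ideal.Quotient.factor hle')
          (Ideal.Quotient.factor_surjective hle')
      have h2 : ringKrullDim ((A ⧸ I) ⧸ K.map (Ideal.Quotient.mk I)) + 1 ≤
          ringKrullDim (A ⧸ I) := le_trans (by gcongr) h3
      rw [← hregI, ← hregK'] at h2
      norm_cast at h2
      omega
    obtain ⟨x', hx'K, hx'2⟩ := SetLike.not_le_iff_exists.mp hnle
    obtain ⟨z, hzK, rfl⟩ :=
      (Ideal.mem_map_iff_of_surjective _ Ideal.Quotient.mk_surjective).mp hx'K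
    have hx'm : Ideal.Quotient.mk I z ∈ maximalIdeal (A ⧸ I) := by
      have hne : K.map (Ideal.Quotient.mk I) ≠ ⊤ :=
        Ideal.Quotient.nontrivial_iff.mp inferInstance
      exact le_maximalIdeal hne hx'K
    have hzI : z ∉ I := by
      intro h
      apply hx'2
      rw [Ideal.Quotient.eq_zero_iff_mem.mpr h]
      exact Ideal.zero_mem _
    obtain ⟨hr1, hr2⟩ := regular_quotient hx'm hx'2
    have hspan : (Ideal.span {z}).map (Ideal.Quotient.mk I) =
        Ideal.span {Ideal.Quotient.mk I z} := by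
      rw [Ideal.map_span, Set.image_singleton]
    have e2 : ((A ⧸ I) ⧸ Ideal.span {Ideal.Quotient.mk I z}) ≃+* (A ⧸ (I ⊔ Ideal.span {z})) :=
      (Ideal.quotEquivOfEq hspan.symm).trans (DoubleQuot.quotQuotEquivQuotSup I (Ideal.span {z}))
    have hr3 : IsRegularLocalRing (A ⧸ (I ⊔ Ideal.span {z})) :=
      IsRegularLocalRing.of_ringEquiv e2
    have hdim3 : ringKrullDim (A ⧸ (I ⊔ Ideal.span {z})) + 1 = ringKrullDim (A ⧸ I) := by
      rw [← ringKrullDim_eq_of_ringEquiv e2]
      exact hr2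
    have hn3 : (maximalIdeal (A ⧸ (I ⊔ Ideal.span {z}))).spanFinrank = n := by
      have h1 := IsRegularLocalRing.spanFinrank_maximalIdeal (R := A ⧸ (I ⊔ Ideal.span {z}))
      rw [← h1, ← hregI, hn] at hdim3
      norm_cast at hdim3
      omega
    obtain ⟨zs, hzs1, hzs2, hzs3⟩ := IH A (I ⊔ Ideal.span {z}) K
      (sup_le hIK ((Ideal.span_singleton_le_iff_mem _).mpr hzK)) hr3 hK hn3
    refine ⟨z :: zs, ⟨hIprime, hzI, hzs1⟩, ?_, ?_⟩
    · intro y hy
      rcases List.mem_cons.mp hy with rfl | hy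
      · exact hzK
      · exact hzs2 y hy
    · rw [← hdim3, ← hzs3]
      simp only [List.length_cons, Nat.cast_add, Nat.cast_one]
      ring

lemma PrimeChain.le {A : Type u} [CommRing A] (zs : List A) :
    ∀ (I K q : Ideal A), PrimeChain I zs K → I ≤ q → (∀ z ∈ zs, z ∈ q) → K ≤ q := by
  induction zs with
  | nil =>
    rintro I K q h hI _
    rw [← show I = K from h]
    exact hI
  | cons z zs IH =>
    rintro I K q ⟨_, _, h⟩ hI hz
    exact IH _ K q h (sup_le hI ((Ideal.span_singleton_le_iff_mem _).mpr (hz z (by simp))))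
      (fun y hy => hz y (by simp [hy]))

/-- Surjections between regular local rings: the kernel is generated by a regular sequence. -/
theorem exists_regQuot (A B : Type u) [CommRing A] [IsRegularLocalRing A] [CommRing B]
    [IsRegularLocalRing B] [Algebra A B] (hsurj : Function.Surjective (algebraMap A B)) :
    ∃ zs : List A, RegQuot zs A B ∧ (∀ z ∈ zs, algebraMap A B z = 0) ∧
      (∀ q : Ideal A, (∀ z ∈ zs, z ∈ q) → RingHom.ker (algebraMap A B) ≤ q) ∧
      (zs.length : WithBot ℕ∞) + ringKrullDim B = ringKrullDim A := by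
  let K := RingHom.ker (Algebra.ofId A B)
  have e : (A ⧸ K) ≃ₐ[A] B := Ideal.quotientKerAlgEquivOfSurjective hsurj
  have e0 : (A ⧸ (⊥ : Ideal A)) ≃+* A := (RingEquiv.quotientBot A)
  have h0 : IsRegularLocalRing (A ⧸ (⊥ : Ideal A)) := IsRegularLocalRing.of_ringEquiv e0.symm
  have hK : IsRegularLocalRing (A ⧸ K) := IsRegularLocalRing.of_ringEquiv e.symm.toRingEquiv
  obtain ⟨zs, h1, h2, h3⟩ := exists_primeChain _ A ⊥ K bot_le h0 hK rfl
  refine ⟨zs, ?_, fun z hz => h2 z hz, ?_, ?_⟩
  · exact RegQuot.congr_left zs (Submodule.quotEquivOfEqBot (⊥ : Ideal A) rfl).symm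
      (RegQuot.congr_right zs e.toLinearEquiv (h1.regQuot zs))
  · intro q hq
    exact PrimeChain.le zs ⊥ K q h1 bot_le hq
  · rw [ringKrullDim_eq_of_ringEquiv e0, ringKrullDim_eq_of_ringEquiv e.toRingEquiv] at h3
    exact h3

end Vale.Agent.P177
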