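import Mathlib

/-!
# The complexes `X ⊗[R] K` as complexes of `A`-modules
-/

open CategoryTheory TensorProduct

namespace Vale.Agent.P177

universe u

variable (R : Type u) [CommRing R] (A : Type u) [CommRing A] [Algebra R A]

/-- `X ⊗[R] -` as a functor from `R`-modules to `A`-modules. -/
noncomputable def tens (X : Type u) [AddCommGroup X] [Module A X] [Module R X]
    [IsScalarTower R A X] : ModuleCat.{u} R ⥤ ModuleCat.{u} A where
  obj P := ModuleCat.of A (X ⊗[R] P)
  map f := ModuleCat.ofHom (TensorProduct.AlgebraTensorModule.lTensor A X f.hom)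
  map_id P := by
    ext : 1
    exact TensorProduct.AlgebraTensorModule.lTensor_id
  map_comp f g := by
    ext : 1
    exact TensorProduct.AlgebraTensorModule.lTensor_comp _ _

section

variable (X Y Z : Type u) [AddCommGroup X] [Module A X] [Module R X] [IsScalarTower R A X]
  [AddCommGroup Y] [Module A Y] [Module R Y] [IsScalarTower R A Y]
  [AddCommGroup Z] [Module A Z] [Module R Z] [IsScalarTower R A Z]

instance : (tens R A X).Additive where
  map_add {P Q f g} := by
    ext : 1
    exact map_add (TensorProduct.AlgebraTensorModule.lTensor A X) f.hom g.hom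

variable {X Y Z}

/-- Functoriality in the module. -/
noncomputable def tensMap (f : X →ₗ[A] Y) : tens R A X ⟶ tens R A Y where
  app P := ModuleCat.ofHom (TensorProduct.AlgebraTensorModule.rTensor R P f)
  naturality P Q g := by
    ext : 1
    change TensorProduct.AlgebraTensorModule.rTensor R Q f ∘ₗ
        TensorProduct.AlgebraTensorModule.lTensor A X g.hom =
      TensorProduct.AlgebraTensorModule.lTensor A Y g.hom ∘ₗ
        TensorProduct.AlgebraTensorModule.rTensor R P f
    apply TensorProduct.AlgebraTensorModule.ext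
    intro x p
    rfl

/-- The complex `X ⊗[R] K`. -/
noncomputable def cpx (X : Type u) [AddCommGroup X] [Module A X] [Module R X]
    [IsScalarTower R A X] (K : ChainComplex (ModuleCat.{u} R) ℕ) :
    ChainComplex (ModuleCat.{u} A) ℕ :=
  ((tens R A X).mapHomologicalComplex _).obj K

/-- Functoriality of `cpx`. -/
noncomputable def cpxMap (f : X →ₗ[A] Y) (K : ChainComplex (ModuleCat.{u} R) ℕ) :
    cpx R A X K ⟶ cpx R A Y K :=
  (NatTrans.mapHomologicalComplex (tensMap R A f) _).app K

lemma cpxMap_f (f : X →ₗ[A] Y) (K : ChainComplex (ModuleCat.{u} R) ℕ) (i : ℕ) :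
    (cpxMap R A f K).f i =
      ModuleCat.ofHom (TensorProduct.AlgebraTensorModule.rTensor R (K.X i) f) := rfl

lemma cpxMap_id (K : ChainComplex (ModuleCat.{u} R) ℕ) :
    cpxMap R A (LinearMap.id : X →ₗ[A] X) K = 𝟙 _ := by
  ext i : 1
  rw [cpxMap_f, TensorProduct.AlgebraTensorModule.rTensor_id]
  rfl

lemma cpxMap_comp (f : X →ₗ[A] Y) (g : Y →ₗ[A] Z) (K : ChainComplex (ModuleCat.{u} R) ℕ) :
    cpxMap R A (g ∘ₗ f) K = cpxMap R A f K ≫ cpxMap R A g K := by
  ext i : 1
  rw [HomologicalComplex.comp_f, cpxMap_f, cpxMap_f, cpxMap_f,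
    TensorProduct.AlgebraTensorModule.rTensor_comp]
  rfl

lemma cpxMap_zero (K : ChainComplex (ModuleCat.{u} R) ℕ) :
    cpxMap R A (0 : X →ₗ[A] Y) K = 0 := by
  ext i : 1
  rw [cpxMap_f, map_zero]
  rfl

lemma cpxMap_lsmul (z : A) (K : ChainComplex (ModuleCat.{u} R) ℕ) :
    cpxMap R A (LinearMap.lsmul A X z) K = z • 𝟙 _ := by
  ext i : 1
  rw [cpxMap_f, HomologicalComplex.smul_f_apply]
  ext : 1
  apply TensorProduct.AlgebraTensorModule.ext
  intro x p
  rfl

/-- `H i X` is the `i`-th homology of `X ⊗[R] K`. -/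
noncomputable def H (X : Type u) [AddCommGroup X] [Module A X] [Module R X]
    [IsScalarTower R A X] (K : ChainComplex (ModuleCat.{u} R) ℕ) (i : ℕ) : ModuleCat.{u} A :=
  (cpx R A X K).homology i

/-- The map on homology. -/
noncomputable def HMap (f : X →ₗ[A] Y) (K : ChainComplex (ModuleCat.{u} R) ℕ) (i : ℕ) :
    H R A X K i →ₗ[A] H R A Y K i :=
  (HomologicalComplex.homologyMap (cpxMap R A f K) i).hom

lemma HMap_id (K : ChainComplex (ModuleCat.{u} R) ℕ) (i : ℕ) :
    HMap R A (LinearMap.id : X →ₗ[A] X) K i = LinearMap.id := by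
  rw [HMap, cpxMap_id, HomologicalComplex.homologyMap_id]
  rfl

lemma HMap_comp (f : X →ₗ[A] Y) (g : Y →ₗ[A] Z) (K : ChainComplex (ModuleCat.{u} R) ℕ) (i : ℕ) :
    HMap R A (g ∘ₗ f) K i = HMap R A g K i ∘ₗ HMap R A f K i := by
  rw [HMap, cpxMap_comp, HomologicalComplex.homologyMap_comp]
  rfl

lemma HMap_zero (K : ChainComplex (ModuleCat.{u} R) ℕ) (i : ℕ) :
    HMap R A (0 : X →ₗ[A] Y) K i = 0 := by
  rw [HMap, cpxMap_zero, HomologicalComplex.homologyMap_zero]
  rfl

lemma HMap_lsmul (z : A) (K : ChainComplex (ModuleCat.{u} R) ℕ) (i : ℕ) :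
    HMap R A (LinearMap.lsmul A X z) K i = LinearMap.lsmul A (H R A X K i) z := by
  rw [HMap, cpxMap_lsmul]
  have : HomologicalComplex.homologyMap (z • 𝟙 (cpx R A X K)) i =
      z • HomologicalComplex.homologyMap (𝟙 (cpx R A X K)) i :=
    ShortComplex.homologyMap_smul ((HomologicalComplex.shortComplexFunctor _ _ i).map
      (𝟙 (cpx R A X K))) z
  rw [this, HomologicalComplex.homologyMap_id]
  rfl

/-- Homology is invariant under isomorphism of the module. -/
noncomputable def HEquiv (e : X ≃ₗ[A] Y) (K : ChainComplex (ModuleCat.{u} R) ℕ) (i : ℕ) :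
    H R A X K i ≃ₗ[A] H R A Y K i :=
  LinearEquiv.ofLinearMap (HMap R A e.toLinearMap K i) (HMap R A e.symm.toLinearMap K i)
    (by rw [← HMap_comp, LinearEquiv.comp_symm, HMap_id])
    (by rw [← HMap_comp, LinearEquiv.symm_comp, HMap_id])

/-- The short complex of complexes attached to `X → Y → Z`. -/
noncomputable def cpxShort (f : X →ₗ[A] Y) (g : Y →ₗ[A] Z) (hfg : g ∘ₗ f = 0)
    (K : ChainComplex (ModuleCat.{u} R) ℕ) : ShortComplex (ChainComplex (ModuleCat.{u} A) ℕ) :=
  ShortComplex.mk (cpxMap R A f K) (cpxMap R A g K) (by rw [← cpxMap_comp, hfg, cpxMap_zero])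

lemma cpxShort_shortExact (f : X →ₗ[A] Y) (g : Y →ₗ[A] Z) (hfg : Function.Exact f g)
    (hf : Function.Injective f) (hg : Function.Surjective g)
    (K : ChainComplex (ModuleCat.{u} R) ℕ) (hK : ∀ i, Module.Flat R (K.X i)) :
    (cpxShort R A f g hfg.linearMap_comp_eq_zero K).ShortExact := by
  apply HomologicalComplex.shortExact_of_degreewise_shortExact
  intro i
  have hflat := hK i
  have e1 : Function.Exact ((f.restrictScalars R).rTensor (K.X i))
      ((g.restrictScalars R).rTensor (K.X i)) :=
    rTensor_exact (R := R) (K.X i) (f := f.restrictScalars R) (g := g.restrictScalars R) hfg hg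
  have e2 : Function.Injective ((f.restrictScalars R).rTensor (K.X i)) :=
    Module.Flat.rTensor_preserves_injective_linearMap (R := R) (M := K.X i)
      (f.restrictScalars R) hf
  have e3 : Function.Surjective ((g.restrictScalars R).rTensor (K.X i)) :=
    LinearMap.rTensor_surjective (R := R) (K.X i) (g := g.restrictScalars R) hg
  exact
    { exact := (ShortComplex.ShortExact.moduleCat_exact_iff_function_exact _).mpr e1
      mono_f := (ModuleCat.mono_iff_injective _).mpr e2
      epi_g := (ModuleCat.epi_iff_surjective _).mpr e3 }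

section LES

variable (f : X →ₗ[A] Y) (g : Y →ₗ[A] Z) (hfg : Function.Exact f g)
    (hf : Function.Injective f) (hg : Function.Surjective g)
    (K : ChainComplex (ModuleCat.{u} R) ℕ) (hK : ∀ i, Module.Flat R (K.X i))

include hfg hf hg hK in
lemma H_exact_mid (i : ℕ) : Function.Exact (HMap R A f K i) (HMap R A g K i) :=
  (ShortComplex.ShortExact.moduleCat_exact_iff_function_exact _).mp
    ((cpxShort_shortExact R A f g hfg hf hg K hK).homology_exact₂ i)

include hfg hf hg hK in
lemma H_exists_delta (i : ℕ) : ∃ δ : H R A Z K (i + 1) →ₗ[A] H R A X K i,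
    Function.Exact (HMap R A g K (i + 1)) δ ∧ Function.Exact δ (HMap R A f K i) := by
  have hS := cpxShort_shortExact R A f g hfg hf hg K hK
  refine ⟨(hS.δ (i + 1) i (by simp)).hom, ?_, ?_⟩
  · exact (ShortComplex.ShortExact.moduleCat_exact_iff_function_exact _).mp
      (hS.homology_exact₃ (i + 1) i (by simp))
  · exact (ShortComplex.ShortExact.moduleCat_exact_iff_function_exact _).mp
      (hS.homology_exact₁ (i + 1) i (by simp))

include hfg hf hg hK in
lemma H_surjective_zero : Function.Surjective (HMap R A g K 0) := by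
  have hS := cpxShort_shortExact R A f g hfg hf hg K hK
  have h1 : Epi ((cpxShort R A f g hfg.linearMap_comp_eq_zero K).g.f 0) := by
    have := hS.epi_g
    infer_instance
  have h2 : Epi (HomologicalComplex.homologyMap
      (cpxShort R A f g hfg.linearMap_comp_eq_zero K).g 0) :=
    HomologicalComplex.epi_homologyMap_of_epi_of_not_rel _ _ (by simp)
  exact (ModuleCat.epi_iff_surjective _).mp h2

end LES

end

end Vale.Agent.P177
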